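import Crest.Agent.X212.Cmp73.Gpf

/-!
# Row 212, COMP (helper31): the modified curvature `Fg - θ` is a consistent field
-/

set_option autoImplicit false
set_option linter.unusedSectionVars false
set_option linter.unusedVariables false
open Set Filter Topology Function MeasureTheory Finset
open scoped ContDiff Manifold InnerProductSpace NNReal

noncomputable section
namespace Crest.Agent.X212.Th31

open Cmp73 An
open Wz78 (nab curv dir SA d2 dv2 Vb pR idx_apply pg_of_mem nab_add nab_sub nab_smul nab_sum nab_csmul)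
open Sob92 (dv)

section gen
variable {E H : Type*} [NormedAddCommGroup E] [NormedSpace ℝ E] [TopologicalSpace H]
  {I : ModelWithCorners ℝ E H} {M : Type*} [TopologicalSpace M] [ChartedSpace H M]
  {V : Type*} [NormedAddCommGroup V] [NormedSpace ℝ V] {ι : Type*} [Fintype ι] [IsManifold I 1 M]
  {e : ι → (x : M) → TangentSpace I x} {c : ι → ι → ι → M → ℝ} {A : ι → M → V →L[ℝ] V} {x : M}

/-- frame divergence of the dual of a two-form -/
theorem dv2_star' {θ : ι → ι → M → V} {o : ι → ι → ι → ι → M → ℝ} (hs : ∀ a b, SA I (θ a b) x)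
    (ho : ∀ a b k l, SA I (o a b k l) x) (o12 : ∀ a b k l, o a b k l x = -o b a k l x)
    (o23 : ∀ a b k l, o a b k l x = -o a k b l x) (o34 : ∀ a b k l, o a b k l x = -o a b l k x) (m : ι) :
    dv2 I e A (fun a b y => ∑ k, ∑ l, o a b k l y • θ k l y) m x
      = ∑ a, ∑ k, ∑ l, (dv I (e a) (o a m k l) x • θ k l x + o a m k l x • ∑ j, c k l j x • θ j a x)
        + (1 / 3 : ℝ) • ∑ a, ∑ k, ∑ l, o a m k l x • d2 I e c A θ a k l x := by
  have cyc : ∀ X : ι → ι → ι → V,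
      ∑ a, ∑ k, ∑ l, o a m k l x • X k l a = ∑ a, ∑ k, ∑ l, o a m k l x • X a k l := fun X => by
    have : ∀ a k l, o a m k l x = o k m l a x := fun a k l => by
      rw [o12, o23, o34, o12 k]; ring
    rw [sum_congr rfl fun a _ => sum_congr rfl fun k _ => sum_congr rfl fun l _ => by
      rw [this a k l], sum_comm]
    exact sum_congr rfl fun k _ => sum_comm
  have h := cyc fun a k l => nab I e A a (θ k l) x - ∑ j, c k l j x • θ j a x
  have h' := (cyc fun k l a => nab I e A a (θ k l) x - ∑ j, c k l j x • θ j a x).symm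
  have e1 : dv2 I e A (fun a b y => ∑ k, ∑ l, o a b k l y • θ k l y) m x = ∑ a, ∑ k, ∑ l,
      (dv I (e a) (o a m k l) x • θ k l x + o a m k l x • nab I e A a (θ k l) x) :=
    sum_congr rfl fun a _ => by
      rw [nab_sum a _ fun k => SA.sum _ fun l _ => (ho a m k l).smul (hs k l)]
      refine sum_congr rfl fun k _ => ?_
      rw [nab_sum a _ fun l => (ho a m k l).smul (hs k l)]
      exact sum_congr rfl fun l _ => nab_smul a (ho a m k l) (hs k l)
  simp only [e1, d2, smul_add, sum_add_distrib, h, h']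
  simp only [smul_sub, sum_sub_distrib]
  module

theorem d2_sub {θ θ' : ι → ι → M → V} (hs : ∀ a b, SA I (θ a b) x) (hs' : ∀ a b, SA I (θ' a b) x)
    (a i l : ι) : d2 I e c A (fun a b y => θ a b y - θ' a b y) a i l x =
      d2 I e c A θ a i l x - d2 I e c A θ' a i l x := by
  simp only [d2, fun a i l => nab_sub (e := e) (A := A) a (hs i l) (hs' i l), smul_sub, sum_sub_distrib]
  abel

end gen

variable {E : Type} [NormedAddCommGroup E] [NormedSpace ℝ E] [FiniteDimensional ℝ E]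
  [MeasurableSpace E] [BorelSpace E]
  {HM : Type} [TopologicalSpace HM] {I : ModelWithCorners ℝ E HM}
  {ι lam : Type} [Fintype ι] [Fintype lam]

/-- the divergence of a two-form with values in `g` in terms of its self-dual part -/
theorem form_div {M : Type} [TopologicalSpace M] [ChartedSpace HM M] [IsManifold I ∞ M]
    [MeasurableSpace M] {m : Md M ι lam} {B : Base M ι lam} (hB : B.OK I) {e : ι → (x : M) → TangentSpace I x}
    (c : ι → ι → ι → M → ℝ) {A : ι → M → m.A →L[ℝ] m.A} {T : M → Fm (ι × ι) m.A} {x : M}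
    (hs : ∀ s, SA I (fun y => T y s) x) (mem : ∀ y s, T y s ∈ m.gS y)
    (a2 : ∀ y s, ∑ t, B.a2 y s t • T y t = T y s) (k : ι) :
    dv2 I e A (fun a b y => T y (a, b)) k x = (2 : ℝ) • dv2 I e A (fun a b y => m.p2 B y (T y) (a, b)) k x
      - (1 / 2 : ℝ) • ∑ a, ∑ i, ∑ l, (dv I (e a) (B.o a k i l) x • T x (i, l)
          + B.o a k i l x • ∑ j, c i l j x • T x (j, a))
      - (1 / 6 : ℝ) • ∑ a, ∑ i, ∑ l, B.o a k i l x • d2 I e c A (fun a b y => T y (a, b)) a i l x := by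
  have h := dv2_star' (e := e) (c := c) (A := A) (θ := fun a b y => T y (a, b)) (fun a b => hs (a, b))
    (fun a b k l => hB.so a b k l x) (fun a b k l => hB.o12 a b k l x)
    (fun a b k l => hB.o23 a b k l x) (fun a b k l => hB.o34 a b k l x) k
  have e1 : ∀ a b y, m.p2 B y (T y) (a, b) = (1 / 2 : ℝ) • T y (a, b)
      + (1 / 4 : ℝ) • ∑ i, ∑ l, B.o a b i l y • T y (i, l) := fun a b y => by
    simp only [Md.p2, idx_apply, pg_of_mem (mem _ _), Base.sd, div_eq_inv_mul, mul_smul,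
      ← smul_sum, add_smul, sum_add_distrib, a2, mul_one]
    simp only [Base.st, div_eq_inv_mul, mul_smul, ← smul_sum, Fintype.sum_prod_type]
    module
  have hS : ∀ a, SA I (fun y => ∑ i, ∑ l, B.o a k i l y • T y (i, l)) x := fun a =>
    SA.sum _ fun i _ => SA.sum _ fun l _ => SA.smul (hB.so _ _ _ _ x) (hs _)
  rw [← sub_eq_iff_eq_add] at h
  rw [← h]
  simp only [dv2, e1, fun a => nab_add (e := e) (A := A) a
    (SA.smul (f := fun _ => (1 / 2 : ℝ)) contMDiffAt_const (hs (a, k)))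
    (SA.smul (f := fun _ => (1 / 4 : ℝ)) contMDiffAt_const (hS a)),
    fun a r => nab_csmul (e := e) (A := A) a r (hs (a, k)),
    fun a r => nab_csmul (e := e) (A := A) a r (hS a), sum_add_distrib, ← smul_sum]
  module

variable {α : Type} {X : α → Type} [∀ n, TopologicalSpace (X n)] [∀ n, ChartedSpace HM (X n)]
  [∀ n, IsManifold I ∞ (X n)] [∀ n, MeasurableSpace (X n)] {r : ℕ}
  {B : ∀ n, Base (X n) ι lam} {G : ∀ n, Geo I (X n) ι lam} {c : ∀ n, Cfg (X n) ι lam r}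
  {F : Filter (Σ n, X n)} {θ : ∀ n, X n → Fm (ι × ι) (c n).m.A}

theorem fld_H0 {b : Fb I ι X} {L : Sy ι X} (i : L.κ) (ht : (L.f i).t = true) (μ : ℝ) (n : α) (x : X n) :
    ‖(L.f i).s n x‖ ^ 2 ≤ b.H L 0 μ 0 n x := by
  refine le_trans ?_ (single_le_sum (f := fun i => ((μ ^ (L.f i).d 0) ^ 2)⁻¹ *
    hs I (b.e n) ((L.f i).A n) μ 0 ((L.f i).s n) x)
    (fun _ _ => mul_nonneg (by positivity) (hs_nonneg ..)) (mem_univ i))
  simp [Fld.d, ht, hs]

variable (G θ) in
/-- the modified curvature -/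
abbrev fT (n : α) (x : X n) : Fm (ι × ι) (c n).m.A := (c n).m.Fg (G n).F (c n).W x - θ n x

variable (G θ) in
/-- the modified base system -/
def tbs : Sy ι X where
  κ := (ι × ι) ⊕ ι
  f := Sum.elim (fun s => ⟨fun n => (c n).m.A, WA c, fun n x => fT G θ n x s, false⟩)
    fun a => (gbs G c).f (.inr a)

variable [I.Boundaryless] [∀ n, T2Space (X n)] [∀ n, BorelSpace (X n)]

/-- **a consistent system** which controls the classes of the base system -/
theorem cons_th (h : Gx B G c F) (hΦ : (gfb G c F).Bd fun n => (c n).Φ)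
    (hD : PF (gfb G c F) (gbs G c) sP (WV c) fun n => dir I (G n).F.e (c n).m.ρ (c n).W (c n).Φ)
    (mem : ∀ n y s, θ n y s ∈ (c n).m.gS y)
    (hθ : TH (gfb G c F) (gbs G c) (WA c) fun i l n y => θ n y (i, l))
    (hC : ∀ s, PF (gfb G c F) (gbs G c) sP (WA c) fun n y => ((c n).m.p2 (B n) y
      ((c n).m.Fg (G n).F (c n).W y) - (c n).m.mu (B n) y ((c n).Φ y) ((c n).Φ y) -
        (c n).m.p2 (B n) y (θ n y)) s) {p : Sy ι X → Prop} (hp : Ev (gfb G c F) (gbs G c) p) :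
    ∃ L₁ L₂, Cons (gfb G c F) L₂ ∧ Kat (gfb G c F) L₂ ∧ p L₁ ∧ Sb (gfb G c F) L₁ L₂ := by
  obtain ⟨L, ok, k⟩ := E2.and hθ (.of_ev ((hD.ev.and (Ev.all fun s => (hC s).ev)).and hp))
  set b := gfb G c F
  obtain ⟨t, ⟨kD, kC⟩, kp⟩ := k L _ Sy.Le.rfl Sy.Le.rfl (le_sum_right b _ _)
  have hL := le_sum_left b (gbs G c) L
  set L₂ := (tbs G θ).sum L
  have wθ := fun s : ι × ι => (t.c s.1 s.2).le (le_sum_right b (tbs G θ) L)
  have sT : ∀ s n, Sm I fun x => fT G θ n x s := fun s n => (h.sF s n).sub ((wθ s).sm n)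
  have wT : ∀ s, Wt (b.cx L₂ 3) (WA c) (sU 4) fun n x => fT G θ n x s := fun s =>
    wt_fld (L := L₂) (.inl (.inl s)) h.sA (sT s)
  have wF : ∀ s, Wt (b.cx L₂ 3) (WA c) (sU 4) (gF' G c s) := fun s =>
    ((wT s).add ((wθ s).mono sC_sU)).congr fun _ _ => (sub_add_cancel _ _).symm
  have sb : Sb b ((gbs G c).sum L) L₂ := by
    refine ⟨?_, ?_⟩
    · rintro ((s | a) | i)
      exacts [wF s, wt_fld (L := L₂) (.inl (.inr a)) h.sV (h.wt_DΦ hL 3 a).sm,
        wt_fld (L := L₂) (.inr i) (ok i).sA (ok i).sm]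
    · rintro ((s | a) | i) ht
      exacts [absurd ht Bool.false_ne_true, fld_H0 (L := L₂) (.inl (.inr a)) ht, fld_H0 (L := L₂) (.inr i) ht]
  have mT : ∀ n y s, fT G θ n y s ∈ (c n).m.gS y := fun n y s => sub_mem (Wz78.Fg_mem ..) (mem n y s)
  have aT : ∀ i l n x, fT G θ n x (i, l) = -fT G θ n x (l, i) := fun i l n x => by
    rw [PiLp.sub_apply, PiLp.sub_apply, t.anti i l n x, neg_sub', ← Wz78.Fg_swap (h.hG n) (h.cn n)]; rfl
  have nT := fun s => ND.of ((wT s).mono sU_sN)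
  have n2 : ∀ a i l, ND b L₂ (WA c) fun n =>
      d2 I (b.e n) (b.c n) (WA c n) (fun i l y => fT G θ n y (i, l)) a i l := fun a i l =>
    (((t.d a i l).sb sb).csmul (-1)).congr fun n x => (d2_sub (fun i l => h.sF (i, l) n x)
      (fun i l => (wθ (i, l)).sm n x) a i l).trans (by
        rw [neg_one_smul, ← zero_sub]
        exact congrArg (· - _) (Wz78.Fg_bianchi (h.hG n) (h.ok n) (h.cn n) (h.spg n) a i l x))
  have wp : ∀ s, Wt (b.cx L₂ 3) (WA c) (sP 3) fun n x => (c n).m.p2 (B n) x (fT G θ n x) s := fun s =>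
    have := (h.wt_Φ (dw := 3) hL hΦ).mono (sW_sP (by omega))
    (sb.w ((kC s 3 le_rfl (by omega)).add (h.wt_mu this this s))).congr fun n x => by
      simp only [map_sub, PiLp.sub_apply]; abel
  have nv : ∀ k, ND b L₂ (WA c) fun n => dv2 I (b.e n) (WA c n) (fun i l y => fT G θ n y (i, l)) k :=
    fun k => ((((ND.sum h.sA fun a => .of (((wp (a, k)).D a).mono fun j => by
      simp only [sP, sN, Prod.mk_le_mk]; omega)).csmul 2).sub ((ND.sum h.sA fun a => .sum h.sA fun i =>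
        .sum h.sA fun l => ((nT (i, l)).smul (Wz78.cs_D (h.gb.o a k i l) a)).add
          ((ND.sum h.sA fun j => (nT (j, a)).smul (h.gb.c i l j)).smul (h.gb.o a k i l))).csmul (1 / 2))).sub
      ((ND.sum h.sA fun a => .sum h.sA fun i => .sum h.sA fun l =>
        (n2 a i l).smul (h.gb.o a k i l)).csmul (1 / 6))).congr fun n x =>
      form_div (h.hB n) _ (fun s => sT s n x) (mT n) (fun y s => Wz78.a2_fix
        (T := fun i l => fT G θ n y (i, l)) (aT · · n y) (fun i l => by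
          have := t.hor i l n y
          simp only [b, gfb, (h.hG n).P] at this
          simp only [PiLp.sub_apply, smul_sub, sum_sub_distrib, this, Wz78.Fg_proj (h.hG n) (h.cn n)]) s) k
  have cv : ∀ a a' s n x, curv I (b.e n) (b.c n) (WA c n) a a' x (fT G θ n x s) =
      adc (opL (gF' G c (a, a') n x)) (fT G θ n x s) := fun a a' s n x =>
    Wz78.curv_adW_g (h.hB n) (h.hG n) (h.ok n) (h.cn n) a a' (mT n x s)
  have bθ : ∀ R, ∃ K, 0 ≤ K ∧ ∀ᶠ q in b.F, ∀ μ, 1 ≤ μ → b.H L₂ 3 μ 0 q.1 q.2 ≤ R →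
      ‖θ q.1 q.2‖ ^ 2 ≤ K * μ ^ 6 := fun R => by
    choose K K0 hK using fun s => (wθ s).bd [] 0 (√R) (by simp [sC])
    refine ⟨∑ s, K s ^ 2, by positivity, (eventually_all.2 hK).mono fun q hq μ m1 m2 => ?_⟩
    rw [PiLp.norm_sq_eq_of_L2, sum_mul]
    refine sum_le_sum fun s _ => (pow_le_pow_left₀ (norm_nonneg _) (hq s μ m1 (Real.sqrt_le_sqrt m2)) 2).trans_eq ?_
    simp only [sC, bt, List.length_nil]; norm_num; ring
  have b1 : ∀ R, ∃ K, 0 ≤ K ∧ ∀ᶠ q in b.F, ∀ μ, 1 ≤ μ → b.H L₂ 3 μ 0 q.1 q.2 ≤ R →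
      ‖fT G θ q.1 q.2‖ ^ 2 ≤ K * (b.en q.1 q.2 + μ ^ 6) ∧
        b.en q.1 q.2 ≤ K * (‖fT G θ q.1 q.2‖ ^ 2 + μ ^ 6) := fun R =>
    let ⟨K, K0, hK⟩ := bθ R
    ⟨2 + 2 * K, by positivity, hK.mono fun q hq μ m1 m2 => by
      have a1 := Wz78.nsq_sub ((c _).m.Fg (G _).F (c _).W q.2) (θ q.1 q.2)
      have a2 := Wz78.nsq_sub (fT G θ q.1 q.2) (-θ q.1 q.2)
      rw [sub_neg_eq_add, sub_add_cancel, norm_neg] at a2
      have a3 := hq μ m1 m2
      have a4 : 0 ≤ μ ^ 6 := by positivity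
      change _ ≤ _ * (‖_‖ ^ 2 + _) ∧ ‖_‖ ^ 2 ≤ _
      constructor <;> nlinarith [mul_nonneg K0 (sq_nonneg ‖fT G θ q.1 q.2‖),
        mul_nonneg K0 (sq_nonneg ‖(c _).m.Fg (G _).F (c _).W q.2‖)]⟩
  refine ⟨_, L₂, ⟨h.gb.c, ?_⟩, ?_, kp, sb⟩
  · rintro ((⟨i, l⟩ | a) | j)
    swap; · exact sb.o3 (h.ok_Φ hL hΦ kD a).o3
    swap; · exact sb.o3 (ok j).o3
    refine ⟨h.sA, sT _, h.kA, sb.crv (h.crv_A hL (sT _) fun n x => mT n x _),
      ⟨fun k => (sD (k + 1)).2, le_rfl, le_rfl, ?_⟩, .inl ⟨rfl, .inl fun R => ?_⟩⟩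
    · have a3 : Cn (sU 4) (sU 4) fun j => sD (j + 1) := fun i j => by
        simp only [sU, sD, Prod.mk_add_mk, Prod.mk_le_mk]; omega
      have m5 : Cn 0 (fun k => sD (k + 1)) fun k => sD (k + 1) := cn0 fun _ _ h => sD_mono (by omega)
      have cw := fun a a' k => (h.gb.c a a' k).wt L₂ 3 0
      refine (((((((nv l).w.D i).sub ((nv i).w.D l)).add (Wt.sum h.sA fun a =>
        ((h.wt_adc (wF (a, i))).app h.sA (wT (a, l)) a3).sub
          ((h.wt_adc (wF (a, l))).app h.sA (wT (a, i)) a3))).add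
        (Wt.sum h.sA fun a => Wt.sum h.sA fun j => ((cw a i j).smul ((nT (a, l)).w.D j) m5).sub
          ((cw a l j).smul ((nT (a, i)).w.D j) m5))).add
        (Wt.sum h.sA fun a => (ND.sum h.sA fun j => (((nT (j, a)).smul (h.gb.c i l j)).add
          ((nT (j, i)).smul (h.gb.c l a j))).add ((nT (j, l)).smul (h.gb.c a i j))).w.D a)).add
        (Wt.sum h.sA fun a => (n2 a i l).w.D a)).congr fun n x => ?_
      simp only [← cv]
      exact (b.frm n).lap2' (h.sA n · x) (θ := fun i l y => fT G θ n y (i, l))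
        (fun i l => sT (i, l) n x) (aT · · n) i l
    · obtain ⟨K, K0, hK⟩ := b1 R
      refine ⟨K + 1, by positivity, hK.mono fun q hq μ m1 m2 => le_trans (pow_le_pow_left₀ (norm_nonneg _)
        (PiLp.norm_apply_le (fT G θ q.1 q.2) (i, l)) 2) ((hq μ m1 m2).1.trans ?_)⟩
      exact mul_le_mul_of_nonneg_right (by linarith) (add_nonneg (sq_nonneg _) (by positivity))
  refine Wz78.kat_of (θ := fun i l n x => fT G θ n x (i, l)) h.gb.c h.kA (fun i l => wT (i, l)) aT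
    (fun _ _ => sq_nonneg _) (h := fun n x => ‖fT G θ n x‖ ^ 2)
    (fun n x => by rw [PiLp.norm_sq_eq_of_L2, Fintype.sum_prod_type]) (fun R => ?_) (fun R => ?_)
    (fun a i l => (n2 a i l).nu) (fun m => (nv m).nu) fun R a a' i l => ?_ <;>
    obtain ⟨K, K0, hK⟩ := b1 R
  · exact ⟨K, K0, hK.mono fun q hq μ hp => (abs_of_nonneg (sq_nonneg _)).trans_le
      (hq μ hp.1 ((b.H_mono ..).trans hp.2)).1⟩
  · exact ⟨K, K0, hK.mono fun q hq μ hp => (abs_of_nonneg (sq_nonneg _)).trans_le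
      (hq μ hp.1 ((b.H_mono ..).trans hp.2)).2⟩
  refine ⟨K + 1, by positivity, hK.mono fun q hq μ hp => ?_⟩
  have a1 := (hq μ hp.1 ((b.H_mono ..).trans hp.2)).2
  have a2 := mul_le_mul (PiLp.norm_apply_le ((c _).m.Fg (G _).F (c _).W q.2) (a, a'))
    (PiLp.norm_apply_le (fT G θ q.1 q.2) (i, l)) (norm_nonneg _) (norm_nonneg _)
  have a4 : 0 ≤ μ ^ 6 := by positivity
  change ‖_‖ ^ 2 ≤ _ at a1
  refine (congrArg norm (cv ..)).trans_le ((Wz78.norm_adc _ _).trans ?_)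
  nlinarith [sq_nonneg (‖(c _).m.Fg (G _).F (c _).W q.2‖ - ‖fT G θ q.1 q.2‖)]

end Crest.Agent.X212.Th31
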