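import Crest.Agent.X212.Cqn41.Defs
import Crest.Agent.X212.Cmp73.Core

/-!
# Row 212, COMP (helper31): currents of resolvent solutions; the leaf `Cqn41.CUx`
-/

set_option autoImplicit false
set_option linter.unusedSectionVars false
open Set Filter Topology Function MeasureTheory Finset
open scoped ContDiff Manifold InnerProductSpace NNReal

noncomputable section
namespace Crest.Agent.X212.Th31

open Cmp73 An Dgr80
open Wz78 (nab lap idx_apply)

variable {E : Type} [NormedAddCommGroup E] [NormedSpace ℝ E] [FiniteDimensional ℝ E]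
  [MeasurableSpace E] [BorelSpace E]
  {HM : Type} [TopologicalSpace HM] {I : ModelWithCorners ℝ E HM}
  {ι lam : Type} [Fintype ι] [Fintype lam] {α : Type}
  {X : α → Type} [∀ n, TopologicalSpace (X n)] [∀ n, ChartedSpace HM (X n)]
  [∀ n, IsManifold I ∞ (X n)] [∀ n, MeasurableSpace (X n)] {r : ℕ}

/-- `tp` as a bilinear map -/
def tpB {V U : Type} [NormedAddCommGroup V] [InnerProductSpace ℝ V] [CompleteSpace V]
    [NormedAddCommGroup U] [InnerProductSpace ℝ U] [CompleteSpace U] (r : CL U (CL V V)) :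
    CL V (CL V U) := (ContinuousLinearMap.adjoint (𝕜 := ℝ) (E := U)
      (F := V)).toContinuousLinearEquiv.toContinuousLinearMap ∘L r.flip

/-- **currents of bounded solutions of resolvent equations** -/
theorem cu_cur {b : Fb I ι X} {L₀ : Sy ι X} {V U : α → Type} [∀ n, NormedAddCommGroup (V n)]
    [∀ n, InnerProductSpace ℝ (V n)] [∀ n, CompleteSpace (V n)] [∀ n, NormedAddCommGroup (U n)]
    [∀ n, InnerProductSpace ℝ (U n)] [∀ n, CompleteSpace (U n)]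
    {A : ∀ n, ι → X n → V n →L[ℝ] V n} {B : ∀ n, ι → X n → U n →L[ℝ] U n}
    {F : ∀ n, Fr I (X n) ι} (he : ∀ n, (F n).e = b.e n) {g : ∀ n, ι → X n → ℝ}
    (hc : ∀ a a' k, b.CS fun n => b.c n a a' k) (hg : ∀ a, b.CS fun n => g n a)
    (sB : ∀ n a, Sm I (B n a)) (kA : ∀ n a x v w, ⟪A n a x v, w⟫_ℝ = -⟪v, A n a x w⟫_ℝ)
    (kB : ∀ n a x v w, ⟪B n a x v, w⟫_ℝ = -⟪v, B n a x w⟫_ℝ)
    (pr : ∀ n a x, ∑ k, b.P n a k x • A n k x = A n a x)
    {ρ : ∀ n, CL (U n) (CL (V n) (V n))} {K : ℝ} (K0 : 0 ≤ K) (h0 : ∀ n, ‖ρ n‖ ≤ K)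
    (hρ : ∀ n a x ξ v, ρ n (B n a x ξ) v = A n a x (ρ n ξ v) - ρ n ξ (A n a x v))
    {s s' u l : ∀ n, X n → V n} (su : ∀ n, Sm I (u n)) (sl : ∀ n, Sm I (l n)) (bu : b.Bd u) (bl : b.Bd l)
    (cu : ∀ dw, 3 ≤ dw → dw ≤ 4 → Crv b (b.cx L₀ dw) A u)
    (cl : ∀ dw, 3 ≤ dw → dw ≤ 4 → Crv b (b.cx L₀ dw) A l)
    (eu : ∀ n x, u n x + lap I (b.e n) (g n) (A n) (u n) x = s n x)
    (el : ∀ n x, l n x + lap I (b.e n) (g n) (A n) (l n) x = s' n x)
    (hs : PF b L₀ sL A s) (hs' : PF b L₀ sL A s') :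
    CU b L₀ B fun a n x => cur (F n) (A n) (ρ n) (u n) (l n) x a := by
  have a1 := e2_res hc hg kA su bu cu eu hs
  have a2 := e2_res hc hg kA sl bl cl el hs'
  have n : ∀ n, ‖tpB (ρ n)‖ ≤ K := fun n => ContinuousLinearMap.opNorm_le_bound _ K0 fun v => by
    change ‖ContinuousLinearMap.adjoint ((ρ n).flip v)‖ ≤ _
    rw [LinearIsometryEquiv.norm_map]
    exact (ρ n).flip.le_of_opNorm_le (by rw [ContinuousLinearMap.opNorm_flip]; exact h0 n) v
  have p : ∀ n a x v w, B n a x (tpB (ρ n) v w) = tpB (ρ n) (A n a x v) w + tpB (ρ n) v (A n a x w) :=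
    fun n a x v w => ext_inner_right ℝ fun ξ => by
      change _ = ⟪tp _ _ _ + tp _ _ _, _⟫_ℝ
      rw [kB, inner_add_left, inner_tp, inner_tp, kA]
      change -⟪tp _ _ _, _⟫_ℝ = _
      rw [inner_tp, hρ, inner_sub_right]; ring
  exact ((cu_half hs.sA sB K0 n p hc pr su sl bu bl (cl 3 le_rfl (by omega)) a1 a2).add
    (cu_half hs.sA sB K0 n p hc pr sl su bl bu (cu 3 le_rfl (by omega)) a2 a1)).congr
    fun a n x => by rw [← he]; rfl

section gx
variable {B : ∀ n, Base (X n) ι lam} {G : ∀ n, Geo I (X n) ι lam} {c : ∀ n, Cfg (X n) ι lam r}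
  {F : Filter (Σ n, X n)} (h : Gx B G c F)
include h

theorem cu_V {s s' u l : ∀ n, X n → (c n).m.V} (hs : PF (gfb G c F) (gbs G c) sP (WV c) s)
    (hs' : PF (gfb G c F) (gbs G c) sP (WV c) s') (bu : (gfb G c F).Bd u) (bl : (gfb G c F).Bd l)
    (eu : ∀ n, Rs (G n).F (c n).W (s n) (u n) ∧ ∀ x, (c n).m.p x (u n x) = u n x)
    (el : ∀ n, Rs (G n).F (c n).W (s' n) (l n) ∧ ∀ x, (c n).m.p x (l n x) = l n x) :
    CU (gfb G c F) (gbs G c) (WA c) fun a n x => cur (G n).F (c n).W opL (u n) (l n) x a :=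
  cu_cur (g := fun n => (G n).F.dv) (fun _ => rfl) h.gb.c h.gb.dv h.sA h.kV h.kA
    (fun n a x => by simpa only [gfb, (h.hG n).P] using (h.cn n).cc.proj a x) zero_le_one (fun _ => norm_opL)
    (fun n a x ξ v => congrArg (· v) (Wz78.opL_adc _ ξ)) (fun n => (eu n).1.sm) (fun n => (el n).1.sm) bu bl
    (fun _ _ _ => h.crv_V Sy.Le.rfl (fun n => (eu n).1.sm) fun n => (eu n).2)
    (fun _ _ _ => h.crv_V Sy.Le.rfl (fun n => (el n).1.sm) fun n => (el n).2)
    (fun n => (eu n).1.eq) (fun n => (el n).1.eq) hs.pL hs'.pL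

theorem cu_A {s s' u l : ∀ n, X n → (c n).m.A} (hs : PF (gfb G c F) (gbs G c) sP (WA c) s)
    (hs' : PF (gfb G c F) (gbs G c) sP (WA c) s') (bu : (gfb G c F).Bd u) (bl : (gfb G c F).Bd l)
    (eu : ∀ n, Rs (G n).F (WA c n) (s n) (u n) ∧ ∀ x, u n x ∈ (c n).m.gS x)
    (el : ∀ n, Rs (G n).F (WA c n) (s' n) (l n) ∧ ∀ x, l n x ∈ (c n).m.gS x) :
    CU (gfb G c F) (gbs G c) (WA c) fun a n x =>
      cur (G n).F (WA c n) (adR (Fin (c n).m.N)) (u n) (l n) x a :=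
  cu_cur (g := fun n => (G n).F.dv) (fun _ => rfl) h.gb.c h.gb.dv h.sA h.kA h.kA
    (fun n a x => by simpa only [gfb, (h.hG n).P] using (Wz78.con_adW (h.cn n)).proj a x) zero_le_two
    (fun _ => ContinuousLinearMap.opNorm_le_bound₂ _ zero_le_two fun u v => by
      rw [mul_assoc]; exact Wz78.norm_adc u v)
    (fun n a x ξ v => congrArg (· v) ((congrArg adc (Wz78.opL_adc _ ξ)).trans (Wz78.adc_lie _ _)))
    (fun n => (eu n).1.sm) (fun n => (el n).1.sm) bu bl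
    (fun _ _ _ => h.crv_A Sy.Le.rfl (fun n => (eu n).1.sm) fun n => (eu n).2)
    (fun _ _ _ => h.crv_A Sy.Le.rfl (fun n => (el n).1.sm) fun n => (el n).2)
    (fun n => (eu n).1.eq) (fun n => (el n).1.eq) hs.pL hs'.pL

/-- the self-dual part of `t ⊗ η` -/
theorem th_p2 {η : ∀ n, X n → Fm ι (c n).m.A} (hη : CU (gfb G c F) (gbs G c) (WA c) fun a n x => η n x a)
    {t : ι → ∀ n, X n → ℝ} (ht : ∀ a, (gfb G c F).CS (t a)) (z : ℝ) :
    ∃ θ : ∀ n, X n → Fm (ι × ι) (c n).m.A, (∀ n y s, θ n y s ∈ (c n).m.gS y) ∧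
      TH (gfb G c F) (gbs G c) (WA c) (fun i l n y => θ n y (i, l)) ∧ ∀ n y, (c n).m.p2 (B n) y (θ n y) =
        z • (c n).m.p2 (B n) y (WithLp.toLp 2 fun s => t s.1 n y • η n y s.2) := by
  have h1 := (CU.map (b := gfb G c F) (B := WA c) h.sA h.spg zero_le_one (fun n x => ContinuousLinearMap.opNorm_le_bound _ zero_le_one
    fun v => by rw [one_mul]; exact Wz78.norm_pg x v)
    (fun n a x => Wz78.pg_par (h.ok n) (h.cn n) (h.spg n) a x) hη).csmul (z / 2)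
  have h2 := h1.wedge h.gb.c (t := fun a n x => ∑ k, (B n).P a k x * t k n x)
    (fun a => Wt.sum (fun _ _ => contMDiff_const) fun k => (h.gb.P a k).mul (ht k) cn00) fun a n x => by
      simp only [gfb, (h.hG n).P, mul_sum, ← mul_assoc]
      rw [sum_comm]
      simp only [← sum_mul, ((h.hB n).pr x).idem]
  obtain ⟨L, -, k⟩ := hη
  have hor := (k L _ Sy.Le.rfl Sy.Le.rfl (le_sum_right _ _ _)).hor
  simp only [gfb, fun n => (h.hG n).P] at hor
  refine ⟨fun n y => WithLp.toLp 2 fun s => (∑ k, (B n).P s.1 k y * t k n y) • (z / 2) • (c n).m.pg y (η n y s.2) -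
    (∑ k, (B n).P s.2 k y * t k n y) • (z / 2) • (c n).m.pg y (η n y s.1), fun n y s => ?_, h2, fun n y => ?_⟩
  · exact sub_mem (Submodule.smul_mem _ _ (Submodule.smul_mem _ _ (Wz78.pg_mem ..)))
      (Submodule.smul_mem _ _ (Submodule.smul_mem _ _ (Wz78.pg_mem ..)))
  have e : ∀ s t, ∑ u, (B n).sd y s u * (B n).a2 y u t = (B n).sd y s t := fun s t => by
    rw [Wz78.sd_symm (h.hB n), ← Wz78.a2_sd (h.hB n)]
    exact sum_congr rfl fun u _ => by rw [Wz78.sd_symm (h.hB n), Wz78.a2_symm (h.hB n), mul_comm]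
  have e2 : (c n).m.p2 (B n) y (WithLp.toLp 2 fun s => t s.1 n y • η n y s.2) = (c n).m.p2 (B n) y
      (idx ((B n).a2 y) ((c n).m.pg y) (WithLp.toLp 2 fun s => t s.1 n y • η n y s.2)) := by
    simp only [Md.p2, Wz78.idx_idx, Wz78.pg_mul_pg, e]
  rw [e2, ← map_smul]
  refine congrArg _ (PiLp.ext fun s => ?_)
  have e3 : ∀ i l, ∑ k, ∑ j, ((B n).P i k y * (B n).P l j y) • (c n).m.pg y (t k n y • η n y j) =
      (∑ k, (B n).P i k y * t k n y) • (c n).m.pg y (η n y l) := fun i l => by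
    simp only [← map_smul, ← map_sum, mul_smul, smul_comm _ (t _ n y), ← smul_sum, hor, sum_smul]
  have e4 := e3 s.2 s.1
  simp only [mul_comm ((B n).P s.2 _ y)  ((B n).P s.1 _ y)] at e4
  simp only [PiLp.smul_apply, idx_apply, Base.a2, Fintype.sum_prod_type,
    div_eq_inv_mul, mul_smul (2⁻¹ : ℝ), ← smul_sum, sub_smul, sum_sub_distrib, e3, e4]
  module

end gx

variable [I.Boundaryless]
  {E₀ : Type} [NormedAddCommGroup E₀] [NormedSpace ℝ E₀] [FiniteDimensional ℝ E₀]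
  [MeasurableSpace E₀] [BorelSpace E₀]
  {H₀ : Type} [TopologicalSpace H₀] {I₀ : ModelWithCorners ℝ E₀ H₀} [I₀.Boundaryless]
  {M : Type} [TopologicalSpace M] [ChartedSpace H₀ M] [IsManifold I₀ ∞ M] [MeasurableSpace M]
  [T2Space M] [BorelSpace M] [SecondCountableTopology M] [∀ n, T2Space (X n)]
  [∀ n, BorelSpace (X n)] [∀ n, SecondCountableTopology (X n)]
  {g : Gs I I₀ M ι lam X} {c : ∀ n, Cfg (X n) ι lam r}

variable (g c) in
/-- the class of one-forms -/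
def CL (η : ∀ n, X n → Fm ι (c n).m.A) : Prop :=
  ∀ x, CU (g.fb c (g.F g.Pᶜ x)) (g.bs c) (WA c) fun a n y => η n y a

/-- **LEAF CU** -/
theorem cux (hg : g.OK) (ha : ∀ n, (c n).Adm (g.B n) (g.G n)) : Cqn41.CUx g c (CL g c) := by
  have a := hg.gx ha subset_rfl
  refine ⟨fun x => .zero (a x).sA, fun h h' x => (h x).add (h' x), fun h h' x => (h x).sub (h' x),
    fun h h' e e' x => cu_V (a x) (h.pf x) (h'.pf x) ?_ ?_ e e',
    fun h h' e e' x => cu_A (a x) (h.pf x) (h'.pf x) ?_ ?_ e e', fun h ht x => ?_⟩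
  · exact Gs.UB.bd (h.bd.imp fun C hC => hC.mono fun n hn => (e n).1.le C hn) _ x
  · exact Gs.UB.bd (h'.bd.imp fun C hC => hC.mono fun n hn => (e' n).1.le C hn) _ x
  · exact Gs.UB.bd (h.bd.imp fun C hC => hC.mono fun n hn => (e n).1.le C hn) _ x
  · exact Gs.UB.bd (h'.bd.imp fun C hC => hC.mono fun n hn => (e' n).1.le C hn) _ x
  obtain ⟨θ, h1, h2, h3⟩ := th_p2 (a x) (h x) (fun i => (ht i).cb x) (-8)
  exact ⟨θ, h1, h2, fun s => (PF.zero (a x).sA).congr fun n y => by rw [h3, sub_self]; rfl⟩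

end Crest.Agent.X212.Th31
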