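import Crest.Agent.X212.Cmp73.Pfc
import Crest.Agent.X212.Wz78.Kat

/-!
# Row 212, COMP (helper31): currents, their two-forms, substitution of fields
-/

set_option autoImplicit false
set_option linter.unusedSectionVars false
open Set Filter Topology Function MeasureTheory
open scoped ContDiff Manifold InnerProductSpace NNReal

noncomputable section
namespace Crest.Agent.X212.Th31

open Cmp73
open An (Sm)
open Wz78 (nab curv lap SA Frm Con d2 Nu Vb pR nu_wt)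
open Sob92 (dv)

/-! ### substitution of jet sizes -/

section scal
variable {Q : Type} {T T' : Jt Q} {k k' : ℕ} {g g' g'' : Q → ℝ → ℝ}

/-- the scalar class of level `k` and weight zero for quantities which depend on the scale -/
def B1 (T : Jt Q) (k : ℕ) (g : Q → ℝ → ℝ) : Prop :=
  ∀ (r : ℕ) (R : ℝ), k ≤ r + 2 → ∃ K, 0 ≤ K ∧ ∀ᶠ q in T.F, ∀ μ, 1 ≤ μ → T.J r q μ ≤ R →
    g q μ ≤ K * bt (fun r => T.J r q μ) r (k - r)

theorem B1.add (h : B1 T k g) (h' : B1 T k g') (e : ∀ q μ, 1 ≤ μ → g'' q μ ≤ g q μ + g' q μ) :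
    B1 T k g'' := fun r R hr =>
  let ⟨K, h0, hK⟩ := h r R hr
  let ⟨K', h0', hK'⟩ := h' r R hr
  ⟨K + K', add_nonneg h0 h0', (hK.and hK').mono fun q hq μ h1 h2 => (e q μ h1).trans
    ((add_le_add (hq.1 μ h1 h2) (hq.2 μ h1 h2)).trans_eq (add_mul ..).symm)⟩

theorem B1.sum {κ : Type} [Fintype κ] {f : κ → Q → ℝ → ℝ} (h : ∀ i, B1 T k (f i)) :
    B1 T k fun q μ => ∑ i, f i q μ := by
  classical
  induction (Finset.univ : Finset κ) using Finset.induction_on with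
  | empty => exact fun _ _ _ => ⟨0, le_rfl, .of_forall fun _ _ _ _ => by simp⟩
  | insert i s hi ih => exact (h i).add ih fun _ _ _ => (Finset.sum_insert hi).le

theorem B1.of_le (h : B1 T k g) (e : ∀ q μ, 1 ≤ μ → g' q μ ≤ g q μ) : B1 T k g' := fun r R hr =>
  let ⟨K, h0, hK⟩ := h r R hr
  ⟨K, h0, hK.mono fun q hq μ h1 h2 => (e q μ h1).trans (hq μ h1 h2)⟩

theorem b1_b0 {d : ℕ} {g : Q → ℝ} (h : B0 T (k, d) g) : B1 T k fun q μ => (μ ^ d)⁻¹ * g q :=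
  fun r R hr => let ⟨K, h0, hK⟩ := h r R hr
  ⟨K, h0, hK.mono fun q hq μ h1 h2 => by
    rw [inv_mul_le_iff₀ (by positivity)]
    exact (hq μ h1 h2).trans_eq (by ring)⟩

theorem b0_subst {s : ℕ × ℕ} {g : Q → ℝ} (h : B0 T s g) (hF : T'.F ≤ T.F)
    (hJ : ∀ k, B1 T' k (T.J k)) : B0 T' s g := by
  intro r R hr
  obtain ⟨K0, -, h0⟩ := hJ r r R (by omega)
  obtain ⟨K1, k1, h1⟩ := hJ (r + 1) r R (by omega)
  obtain ⟨K2, k2, h2⟩ := hJ (r + 2) r R le_rfl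
  obtain ⟨K, k0, hK⟩ := h r K0 hr
  refine ⟨K * ((1 + K1) ^ 2 + K2), by positivity, ?_⟩
  filter_upwards [h0, h1, h2, hK.filter_mono hF] with q a0 a1 a2 a3 μ m1 m2
  replace a0 := a0 μ m1 m2
  replace a1 := a1 μ m1 m2
  replace a2 := a2 μ m1 m2
  simp only [Nat.sub_self, Nat.add_sub_cancel_left, bt, mul_one] at a0 a1 a2
  refine (a3 μ m1 a0).trans ?_
  rw [mul_right_comm K _ (μ ^ s.2), mul_assoc (K * μ ^ s.2)]
  have m0 : 0 ≤ μ := by linarith
  refine mul_le_mul_of_nonneg_left ?_ (by positivity)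
  have n1 := T'.nn (r + 1) q μ
  have n2 := T'.nn (r + 2) q μ
  have n3 := T.nn (r + 1) q μ
  have e1 : 1 + T.J (r + 1) q μ ≤ (1 + K1) * (1 + T'.J (r + 1) q μ) := by nlinarith
  have e2 := pow_le_pow_left₀ (by positivity) e1 2
  rcases s.1 - r with _ | _ | d <;> simp only [bt]
  · nlinarith
  · nlinarith [mul_nonneg k2 n1, mul_nonneg (mul_nonneg k1 k1) n1, mul_nonneg k1 n1]
  · nlinarith [mul_nonneg (sq_nonneg (1 + K1)) n2]

theorem sqrt_sum_le {κ : Type} [Fintype κ] {f : κ → ℝ} (h : ∀ i, 0 ≤ f i) :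
    √(∑ i, f i) ≤ ∑ i, √(f i) :=
  Real.sqrt_le_iff.2 ⟨by positivity, (Finset.sum_congr rfl fun i _ => (Real.sq_sqrt (h i)).symm).trans_le
    (Finset.sum_sq_le_sq_sum_of_nonneg fun _ _ => Real.sqrt_nonneg _)⟩

end scal

section vb
variable {Q : Type} {F : Filter Q} {p p' : Q → ℝ → Prop} {u u' : Q → ℝ → ℝ} {V W : Q → Type}
  [∀ q, NormedAddCommGroup (V q)] [∀ q, NormedAddCommGroup (W q)] {f : ∀ q, V q} {g : ∀ q, W q}

theorem vb_chg (h : Vb F p u f) {C : ℝ} (C0 : 0 ≤ C)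
    (e : ∀ᶠ q in F, ∀ μ, p' q μ → p q μ ∧ u q μ ≤ C * u' q μ) : Vb F p' u' f :=
  let ⟨K, h0, h1⟩ := h
  ⟨K * C, by positivity, (h1.and e).mono fun q hq μ hp => (hq.1 μ (hq.2 μ hp).1).trans
    ((mul_le_mul_of_nonneg_left (hq.2 μ hp).2 h0).trans_eq (mul_assoc ..).symm)⟩

theorem vb_of_le (h : Vb F p u f) {C : ℝ} (C0 : 0 ≤ C) (e : ∀ q, ‖g q‖ ≤ C * ‖f q‖) : Vb F p u g :=
  let ⟨K, h0, h1⟩ := h
  ⟨C * K, by positivity, h1.mono fun q hq μ hp => (e q).trans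
    ((mul_le_mul_of_nonneg_left (hq μ hp) C0).trans_eq (mul_assoc ..).symm)⟩

end vb

variable {E : Type} [NormedAddCommGroup E] [NormedSpace ℝ E] {HM : Type} [TopologicalSpace HM]
  {I : ModelWithCorners ℝ E HM} {ι : Type} [Fintype ι]
  {α : Type} {X : α → Type} [∀ n, TopologicalSpace (X n)] [∀ n, ChartedSpace HM (X n)]
  [∀ n, IsManifold I ∞ (X n)] [∀ n, MeasurableSpace (X n)] {b : Fb I ι X} {L₀ L L₁ L₂ : Sy ι X}

section sub
variable {V : α → Type} [∀ n, NormedAddCommGroup (V n)] [∀ n, NormedSpace ℝ (V n)]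
  {A : ∀ n, ι → X n → V n →L[ℝ] V n} {C : Ctx I ι X}

theorem b1_hs (k : ℕ) : ∀ {m d : ℕ} {s : ∀ n, X n → V n}, Wt C A (fun j => (j + m, d + 2 * j)) s →
    B1 C.toJt (k + m) fun q μ => (μ ^ d)⁻¹ * √(hs I (C.e q.1) (A q.1) μ k (s q.1) q.2) := by
  induction k with
  | zero => exact fun h => (b1_b0 (h.bd [])).of_le fun q μ _ => by simp [hs, Dw]
  | succ k ih =>
    intro m d s h
    have h1 := B1.sum fun a => ih (m := m + 1) (d := d + 2) ((h.D a).mono fun j => by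
      simp only [Prod.mk_le_mk]; omega)
    rw [show k + (m + 1) = k + 1 + m by omega] at h1
    refine (b1_b0 (k := k + 1 + m) (d := d) ((h.bd []).mono ⟨by simp, by simp⟩)).add h1 fun q μ m1 => ?_
    have m0 : 0 < μ := by linarith
    simp only [pow_add, mul_inv, mul_assoc, ← Finset.mul_sum, ← mul_add, hs, Dw]
    refine mul_le_mul_of_nonneg_left ((Real.sqrt_le_iff.2 ⟨by positivity, ?_⟩)) (by positivity)
    have h2 := pow_le_pow_left₀ (Real.sqrt_nonneg _) (sqrt_sum_le fun a => hs_nonneg (I := I)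
      (e := C.e q.1) (A := A q.1) (μ := μ) k (nab I (C.e q.1) (A q.1) a (s q.1)) q.2) 2
    rw [Real.sq_sqrt (Finset.sum_nonneg fun _ _ => hs_nonneg ..)] at h2
    rw [add_sq, mul_pow, inv_pow, ← pow_mul, add_right_comm]
    exact le_add_of_le_of_nonneg (add_le_add_right (mul_le_mul_of_nonneg_left h2 (by positivity)) _)
      (by positivity)

variable (b L₁ L₂) in
/-- the fields of `L₁` are controlled by `L₂` (weight three) -/
structure Sb : Prop where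
  wt : ∀ i, Wt (b.cx L₂ 3) (L₁.f i).A (sU ((L₁.f i).d 3)) (L₁.f i).s
  tr : ∀ i, (L₁.f i).t = true → ∀ μ n x, ‖(L₁.f i).s n x‖ ^ 2 ≤ b.H L₂ 0 μ 0 n x

namespace Sb
variable (h : Sb b L₁ L₂)
include h

theorem b1 (k : ℕ) : B1 (b.cx L₂ 3).toJt k ((b.cx L₁ 3).J k) :=
  (B1.sum fun i => b1_hs (m := 0) k (h.wt i)).of_le fun q μ m1 =>
    (sqrt_sum_le fun i => mul_nonneg (by positivity) (hs_nonneg ..)).trans_eq
      (Finset.sum_congr rfl fun i _ => by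
        rw [Real.sqrt_mul (by positivity), Real.sqrt_inv, Real.sqrt_sq (by positivity)]; rfl)

theorem w {σ : ℕ → ℕ × ℕ} {f : ∀ n, X n → V n} (hf : Wt (b.cx L₁ 3) A σ f) : Wt (b.cx L₂ 3) A σ f :=
  ⟨hf.sA, hf.sm, fun v => b0_subst (hf.bd v) le_rfl h.b1⟩

theorem crv {f : ∀ n, X n → V n} (hf : Crv b (b.cx L₁ 3) A f) : Crv b (b.cx L₂ 3) A f :=
  fun a a' => let ⟨R, h1, h2⟩ := hf a a'; ⟨R, h.w h1, h2⟩

theorem H (r : ℕ) (R : ℝ) : ∃ R', ∀ᶠ q in b.F, ∀ μ, 1 ≤ μ → b.H L₂ 3 μ r q.1 q.2 ≤ R →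
    b.H L₁ 3 μ r q.1 q.2 ≤ R' :=
  let ⟨K, k0, hK⟩ := h.b1 r r (√R) (by omega)
  ⟨K ^ 2, hK.mono fun q hq μ m1 m2 => (Real.sqrt_le_left k0).1 (by
    simpa [bt, Fb.cx] using hq μ m1 (Real.sqrt_le_sqrt m2))⟩

theorem o3 {f : Fld ι X} (hf : f.O3 b L₁) : f.O3 b L₂ :=
  ⟨hf.sA, hf.sm, hf.sk, h.crv hf.crv, let ⟨ϖ, a1, a2, a3⟩ := hf.lap; ⟨ϖ, a1, a2, h.w a3⟩,
    hf.kind.imp_left (And.imp_right (Or.imp_left fun k R =>
      let ⟨R', h1⟩ := h.H 0 R
      let ⟨C, C0, h2⟩ := k R'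
      ⟨C, C0, (h1.and h2).mono fun _ hq μ m1 m2 => hq.2 μ m1 (hq.1 μ m1 m2)⟩))⟩

theorem H0 (μ : ℝ) (n : α) (x : X n) :
    b.H L₁ 0 μ 0 n x ≤ b.H L₁ 3 μ 0 n x + Fintype.card L₁.κ * b.H L₂ 0 μ 0 n x := by
  rw [← nsmul_eq_mul, ← Finset.card_univ, ← Finset.sum_const, Fb.H, Fb.H, ← Finset.sum_add_distrib]
  refine Finset.sum_le_sum fun i _ => ?_
  rcases ht : (L₁.f i).t
  · simp only [Fld.d, ht]
    exact le_add_of_nonneg_right (b.H_nonneg ..)
  · refine le_add_of_nonneg_of_le (mul_nonneg (by positivity) (hs_nonneg ..)) ?_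
    simpa [Fld.d, ht, hs] using h.tr i ht μ n x

theorem nu {V : α → Type} [∀ n, NormedAddCommGroup (V n)] [∀ n, InnerProductSpace ℝ (V n)]
    {A : ∀ n, ι → X n → V n →L[ℝ] V n} {f : ∀ n, X n → V n} (hf : Nu b L₁ A f) : Nu b L₂ A f := by
  refine ⟨hf.1, fun R => ?_⟩
  obtain ⟨R', h1⟩ := h.H 1 R
  set C : ℝ := 1 + |R'| + Fintype.card L₁.κ
  have C1 : 1 ≤ C := by have := abs_nonneg R'; simp only [C]; linarith [Nat.cast_nonneg (α := ℝ) (Fintype.card L₁.κ)]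
  have e := h1.mono fun q hq μ (hp : pR b L₂ R q μ) => show pR b L₁ R' q μ ∧
      μ ^ 4 + b.H L₁ 0 μ 0 q.1 q.2 ≤ C * (μ ^ 4 + b.H L₂ 0 μ 0 q.1 q.2) from ⟨⟨hp.1, hq μ hp.1 hp.2⟩, by
    have a1 := (b.H_mono ..).trans ((hq μ hp.1 hp.2).trans (le_abs_self _))
    have a2 := one_le_pow₀ (n := 4) hp.1
    have a3 := b.H_nonneg L₂ 0 μ 0 q.1 q.2
    nlinarith [h.H0 μ q.1 q.2, abs_nonneg R', Nat.cast_nonneg (α := ℝ) (Fintype.card L₁.κ),
      mul_nonneg (abs_nonneg R') a3]⟩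
  refine ⟨vb_chg (hf.2 R').1 (by linarith) e, fun a => vb_chg ((hf.2 R').2 a) (Real.sqrt_nonneg C)
    (e.mono fun q hq μ hp => ⟨(hq μ hp).1, ?_⟩)⟩
  rw [mul_left_comm, ← Real.sqrt_mul (by linarith)]
  exact mul_le_mul_of_nonneg_left (Real.sqrt_le_sqrt (hq μ hp).2) (by have := hp.1; positivity)

end Sb
end sub

/-! ### properties of the auxiliary fields -/

variable (b L₀) in
/-- `p L L₁` holds for all auxiliary systems `L` and total systems `L₁` above a consistent extension -/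
def E2 (p : Sy ι X → Sy ι X → Prop) : Prop := ∃ L : Sy ι X, (∀ i, (L.f i).OK b (L₀.sum L)) ∧
  ∀ L' L₁, L.Le b L' → (L₀.sum L).Le b L₁ → L'.Le b L₁ → p L' L₁

namespace E2
variable {p p' : Sy ι X → Sy ι X → Prop}

theorem of_ev {p : Sy ι X → Prop} (h : Ev b L₀ p) : E2 b L₀ fun _ L₁ => p L₁ :=
  let ⟨L, h1, h2⟩ := h; ⟨L, h1, fun _ _ _ a _ => h2 _ a⟩

theorem mono (h : E2 b L₀ p) (e : ∀ L L₁, L₀.Le b L₁ → L.Le b L₁ → p L L₁ → p' L L₁) : E2 b L₀ p' :=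
  let ⟨L, h1, h2⟩ := h
  ⟨L, h1, fun _ _ a c d => e _ _ ((le_sum_left b _ _).trans c) d (h2 _ _ a c d)⟩

theorem and (h : E2 b L₀ p) (h' : E2 b L₀ p') : E2 b L₀ fun L L₁ => p L L₁ ∧ p' L L₁ := by
  obtain ⟨L, h1, h2⟩ := h'
  obtain ⟨L₂, k1, k2⟩ := h
  have a1 := le_sum_left b L₂ L
  have a2 := le_sum_right b L₂ L
  refine ⟨L₂.sum L, ?_, fun _ _ a c d => ⟨k2 _ _ (a1.trans a) ((a1.sum L₀).trans c) d,
    h2 _ _ (a2.trans a) ((a2.sum L₀).trans c) d⟩⟩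
  rintro (i | i)
  exacts [(k1 i).le (a1.sum L₀), (h1 i).le (a2.sum L₀)]

theorem of (h : ∀ L L₁, p L L₁) : E2 b L₀ p := ⟨Sy.nil, fun i => i.elim, fun _ _ _ _ _ => h _ _⟩

end E2

/-- weights of currents -/
def sC (k : ℕ) : ℕ × ℕ := (k, min (3 + 3 * k) (4 + 2 * k))
/-- weights of exterior derivatives of currents -/
def sD (k : ℕ) : ℕ × ℕ := (k, max (6 + 2 * k) (4 + 3 * k))
/-- weights of curvature terms -/
def sN (k : ℕ) : ℕ × ℕ := (k, 4 + 3 * k)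

theorem sC_mono : Monotone sC := fun _ _ h => ⟨h, by simp only [sC]; omega⟩
theorem sD_mono : Monotone sD := fun _ _ h => ⟨h, by simp only [sD]; omega⟩
theorem sC_sU (k : ℕ) : sC k ≤ sU 4 k := ⟨le_rfl, min_le_right _ _⟩
theorem sU_sN (k : ℕ) : sU 4 k ≤ sN k := ⟨le_rfl, by simp only [sU, sN]; omega⟩
theorem sN_sD (k : ℕ) : sN k ≤ sD k := ⟨le_rfl, le_max_right _ _⟩
theorem cn_WU : Cn (sW 3) (sU 3) sC := fun i j => by
  rcases i with _ | i <;> simp only [sW, sU, sC, Prod.mk_add_mk, Prod.mk_le_mk, zero_add] <;> omega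
theorem cn_UU : Cn (sU 3) (sU 3) sD := fun i j => by
  simp only [sU, sD, Prod.mk_add_mk, Prod.mk_le_mk]; omega
theorem cn_UP : Cn (sU 4) (sP 3) sN := fun i j => by
  simp only [sU, sP, sN, Prod.mk_add_mk, Prod.mk_le_mk]; omega
theorem cn_PN : Cn (sP 3) sN sN := fun i j => by
  simp only [sP, sN, Prod.mk_add_mk, Prod.mk_le_mk]; omega

variable {V U U' : α → Type} [∀ n, NormedAddCommGroup (V n)] [∀ n, InnerProductSpace ℝ (V n)]
  [∀ n, NormedAddCommGroup (U n)] [∀ n, InnerProductSpace ℝ (U n)]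
  [∀ n, NormedAddCommGroup (U' n)] [∀ n, InnerProductSpace ℝ (U' n)]
  {A : ∀ n, ι → X n → V n →L[ℝ] V n} {B : ∀ n, ι → X n → U n →L[ℝ] U n}
  {B' : ∀ n, ι → X n → U' n →L[ℝ] U' n}

variable (b L₁ B) in
/-- exterior derivatives -/
structure ND (f : ∀ n, X n → U n) : Prop where
  w : Wt (b.cx L₁ 3) B sD f
  nu : Nu b L₁ B f

namespace ND
variable {f g : ∀ n, X n → U n}

theorem of (h : Wt (b.cx L₁ 3) B sN f) : ND b L₁ B f :=
  ⟨h.mono sN_sD, nu_wt h (by simp [sN]) (by simp [sN])⟩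

theorem congr (h : ND b L₁ B f) (e : ∀ n x, g n x = f n x) : ND b L₁ B g :=
  ⟨h.w.congr e, h.nu.congr fun n x => (e n x).symm⟩

theorem add (h : ND b L₁ B f) (h' : ND b L₁ B g) : ND b L₁ B fun n x => f n x + g n x :=
  ⟨h.w.add h'.w, h.nu.add h'.nu⟩

theorem sub (h : ND b L₁ B f) (h' : ND b L₁ B g) : ND b L₁ B fun n x => f n x - g n x :=
  ⟨h.w.sub h'.w, h.nu.sub h'.nu⟩

theorem sum {κ : Type} [Fintype κ] (sB : ∀ n a, Sm I (B n a)) {f : κ → ∀ n, X n → U n}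
    (h : ∀ i, ND b L₁ B (f i)) : ND b L₁ B fun n x => ∑ i, f i n x :=
  ⟨Wt.sum sB fun i => (h i).w, .sum fun i => (h i).nu⟩

theorem smul {φ : ∀ n, X n → ℝ} (hφ : b.CS φ) (h : ND b L₁ B f) :
    ND b L₁ B fun n x => φ n x • f n x :=
  ⟨(hφ.wt L₁ 3 0).smul h.w (cn0 sD_mono), h.nu.smul hφ⟩

theorem csmul (r : ℝ) (h : ND b L₁ B f) : ND b L₁ B fun n x => r • f n x :=
  ⟨h.w.const_smul r, h.nu.csmul r⟩

theorem sb (h : ND b L₁ B f) (s : Sb b L₁ L₂) : ND b L₂ B f := ⟨s.w h.w, s.nu h.nu⟩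

end ND

theorem nab_par {T : ∀ n, X n → U n →L[ℝ] U' n} (sT : ∀ n, Sm I (T n))
    (h : ∀ n a x, dv I (b.e n a) (T n) x + (B' n a x ∘L T n x - T n x ∘L B n a x) = 0)
    {n : α} {u : X n → U n} (hu : Sm I u) (a : ι) (x : X n) :
    nab I (b.e n) (B' n) a (fun x => T n x (u x)) x = T n x (nab I (b.e n) (B n) a u x) := by
  rw [nab_hom (A := B n) a (sT n x) (hu x),
    show nab I (b.e n) (hom (B n) (B' n)) a (T n) x = 0 from h n a x]
  simp

theorem ND.map {f : ∀ n, X n → U n} {T : ∀ n, X n → U n →L[ℝ] U' n} (sB : ∀ n a, Sm I (B' n a))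
    (sT : ∀ n, Sm I (T n)) {K : ℝ} (K0 : 0 ≤ K) (h0 : ∀ n x, ‖T n x‖ ≤ K)
    (h : ∀ n a x, dv I (b.e n a) (T n) x + (B' n a x ∘L T n x - T n x ∘L B n a x) = 0)
    (hf : ND b L₁ B f) : ND b L₁ B' fun n x => T n x (f n x) :=
  ⟨hf.w.map sB sT h0 h, fun n => (sT n).clm_apply (hf.w.sm n), fun R =>
    ⟨vb_of_le (hf.nu.2 R).1 K0 fun q => (T q.1 q.2).le_of_opNorm_le (h0 ..) _, fun a =>
      vb_of_le ((hf.nu.2 R).2 a) K0 fun q => by
        rw [nab_par sT h (hf.w.sm _)]; exact (T q.1 q.2).le_of_opNorm_le (h0 ..) _⟩⟩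

variable (b L L₁ B) in
/-- one-forms like currents -/
structure CU0 (η : ι → ∀ n, X n → U n) : Prop where
  hor : ∀ a n x, ∑ k, b.P n a k x • η k n x = η a n x
  c : ∀ a, Wt (b.cx L 3) B sC (η a)
  d : ∀ a a', ND b L₁ B fun n x =>
    nab I (b.e n) (B n) a (η a' n) x - nab I (b.e n) (B n) a' (η a n) x

variable (b L L₁ B) in
/-- two-forms like `t ∧ η` -/
structure TH0 (θ : ι → ι → ∀ n, X n → U n) : Prop where
  anti : ∀ i l n x, θ i l n x = -θ l i n x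
  hor : ∀ i l n x, ∑ k, b.P n i k x • θ k l n x = θ i l n x
  c : ∀ i l, Wt (b.cx L 3) B sC (θ i l)
  d : ∀ a i l, ND b L₁ B fun n => d2 I (b.e n) (b.c n) (B n) (fun i l => θ i l n) a i l

variable (b L₀ B) in
/-- the class of currents -/
def CU (η : ι → ∀ n, X n → U n) : Prop := E2 b L₀ fun L L₁ => CU0 b L L₁ B η

variable (b L₀ B) in
/-- the class of two-forms -/
def TH (θ : ι → ι → ∀ n, X n → U n) : Prop := E2 b L₀ fun L L₁ => TH0 b L L₁ B θ

namespace CU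
variable {η η' : ι → ∀ n, X n → U n}

theorem congr (h : CU b L₀ B η) (e : ∀ a n x, η' a n x = η a n x) : CU b L₀ B η' := by
  rwa [show η' = η from funext fun a => funext fun n => funext (e a n)]

theorem zero (sB : ∀ n a, Sm I (B n a)) : CU b L₀ B fun _ _ _ => 0 :=
  E2.of fun _ _ => ⟨fun _ _ _ => by simp, fun _ => Wt.zero sB, fun _ _ =>
    (ND.of (Wt.zero sB)).congr fun _ _ => by simp [nab_const0]⟩

theorem add (h : CU b L₀ B η) (h' : CU b L₀ B η') : CU b L₀ B fun a n x => η a n x + η' a n x :=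
  (h.and h').mono fun _ _ _ _ ⟨k, k'⟩ => ⟨fun a n x => by
    simp only [smul_add, Finset.sum_add_distrib, k.hor, k'.hor], fun a => (k.c a).add (k'.c a),
    fun a a' => ((k.d a a').add (k'.d a a')).congr fun n x => by
      rw [Wz78.nab_add a ((k.c a').sm n x) ((k'.c a').sm n x),
        Wz78.nab_add a' ((k.c a).sm n x) ((k'.c a).sm n x)]
      abel⟩

theorem map {T : ∀ n, X n → U n →L[ℝ] U' n} (sB : ∀ n a, Sm I (B' n a))
    (sT : ∀ n, Sm I (T n)) {K : ℝ} (K0 : 0 ≤ K) (h0 : ∀ n x, ‖T n x‖ ≤ K)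
    (hT : ∀ n a x, dv I (b.e n a) (T n) x + (B' n a x ∘L T n x - T n x ∘L B n a x) = 0)
    (h : CU b L₀ B η) : CU b L₀ B' fun a n x => T n x (η a n x) :=
  E2.mono h fun _ _ _ _ k => ⟨fun a n x => by simp only [← map_smul, ← map_sum, k.hor],
    fun a => (k.c a).map sB sT h0 hT, fun a a' => ((k.d a a').map sB sT K0 h0 hT).congr fun n x => by
      rw [nab_par sT hT ((k.c a).sm n), nab_par sT hT ((k.c a').sm n), map_sub]⟩

theorem csmul (r : ℝ) (h : CU b L₀ B η) : CU b L₀ B fun a n x => r • η a n x :=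
  E2.mono h fun _ _ _ _ k => ⟨fun a n x => by simp only [smul_comm _ r, ← Finset.smul_sum, k.hor],
    fun a => (k.c a).const_smul r, fun a a' => ((k.d a a').csmul r).congr fun n x => by
      rw [Wz78.nab_csmul a r ((k.c a').sm n x), Wz78.nab_csmul a' r ((k.c a).sm n x), smul_sub]⟩

theorem sub (h : CU b L₀ B η) (h' : CU b L₀ B η') : CU b L₀ B fun a n x => η a n x - η' a n x :=
  (h.add (h'.csmul (-1))).congr fun _ _ _ => by rw [neg_one_smul, sub_eq_add_neg]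

/-- `t ∧ η` -/
theorem wedge (hc : ∀ a a' k, b.CS fun n => b.c n a a' k) {t : ι → ∀ n, X n → ℝ} (ht : ∀ a, b.CS (t a))
    (hor : ∀ a n x, ∑ k, b.P n a k x * t k n x = t a n x) (h : CU b L₀ B η) :
    TH b L₀ B fun i l n x => t i n x • η l n x - t l n x • η i n x := by
  refine E2.mono h fun L L₁ _ hL k => ?_
  have c := fun i l => (((ht i).wt L 3 0).smul (k.c l) (cn0 sC_mono)).sub
    (((ht l).wt L 3 0).smul (k.c i) (cn0 sC_mono))
  have n0 : ∀ {f}, Wt (b.cx L 3) B sC f → ND b L₁ B f := fun h =>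
    .of ((h.le hL).mono fun k => (sC_sU k).trans (sU_sN k))
  have n1 := fun a i l => ((n0 (k.c l)).smul (Wz78.cs_D (ht i) a)).sub
    ((n0 (k.c i)).smul (Wz78.cs_D (ht l) a))
  have n2 := fun a i l => ND.sum (k.c a).sA fun j => (n0 (c j a)).smul (hc i l j)
  refine ⟨fun _ _ _ _ => (neg_sub _ _).symm, fun i l n x => ?_, c, fun a i l =>
    (((((k.d a l).smul (ht i)).add ((k.d i a).smul (ht l))).add ((k.d l i).smul (ht a))).add
      ((((n1 a i l).sub (n2 a i l)).add ((n1 i l a).sub (n2 i l a))).add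
        ((n1 l a i).sub (n2 l a i)))).congr fun n x => ?_⟩
  · simp only [smul_sub, Finset.sum_sub_distrib, smul_comm _ (t l n x), ← Finset.smul_sum, k.hor]
    simp only [smul_smul, ← Finset.sum_smul, hor]
  · have s := fun i l => SA.smul ((ht i).sm n x) ((k.c l).sm n x)
    simp only [d2, fun a i l => Wz78.nab_sub (e := b.e n) (A := B n) a (s i l) (s l i),
      fun a i l => Wz78.nab_smul (e := b.e n) (A := B n) a ((ht i).sm n x) ((k.c l).sm n x), smul_sub]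
    abel

end CU

namespace TH
variable {θ θ' : ι → ι → ∀ n, X n → U n}

theorem zero (sB : ∀ n a, Sm I (B n a)) : TH b L₀ B fun _ _ _ _ => 0 :=
  E2.of fun _ _ => ⟨fun _ _ _ _ => neg_zero.symm, fun _ _ _ _ => by simp, fun _ _ => Wt.zero sB,
    fun _ _ _ => (ND.of (Wt.zero sB)).congr fun _ _ => by simp [d2, nab_const0]⟩

theorem add (h : TH b L₀ B θ) (h' : TH b L₀ B θ') :
    TH b L₀ B fun i l n x => θ i l n x + θ' i l n x :=
  (h.and h').mono fun _ _ _ _ ⟨k, k'⟩ => ⟨fun i l n x => by rw [k.anti, k'.anti, neg_add],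
    fun i l n x => by simp only [smul_add, Finset.sum_add_distrib, k.hor, k'.hor],
    fun i l => (k.c i l).add (k'.c i l), fun a i l => ((k.d a i l).add (k'.d a i l)).congr fun n x => by
      simp only [d2, fun a i l => Wz78.nab_add (e := b.e n) (A := B n) a ((k.c i l).sm n x)
        ((k'.c i l).sm n x), smul_add, Finset.sum_add_distrib]
      abel⟩

theorem smul {z : α → ℝ} {K : ℝ} (hz : ∀ᶠ q in b.F, |z q.1| ≤ K) (h : TH b L₀ B θ) :
    TH b L₀ B fun i l n x => z n • θ i l n x :=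
  have c : b.CS fun n _ => z n := Wt.cst hz
  E2.mono h fun L _ _ _ k => ⟨fun i l n x => by rw [k.anti, smul_neg],
    fun i l n x => by simp only [smul_comm _ (z n), ← Finset.smul_sum, k.hor],
    fun i l => (c.wt L 3 0).smul (k.c i l) (cn0 sC_mono), fun a i l => ((k.d a i l).smul c).congr
      fun n x => by
      simp only [d2, fun a i l => Wz78.nab_csmul (e := b.e n) (A := B n) a (z n) ((k.c i l).sm n x),
        smul_add, smul_sub, smul_comm _ (z n), Finset.smul_sum]⟩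

end TH

/-! ### currents of resolvent solutions -/

section res
variable {s u v l : ∀ n, X n → V n} {g : ∀ n, ι → X n → ℝ}

theorem wt_syD (sA : ∀ n a, Sm I (A n a)) (sm : ∀ n, Sm I (u n)) (hL : (syD b A u).Le b L) (dw : ℕ)
    (a : ι) : Wt (b.cx L dw) A (sU dw) fun n => nab I (b.e n) (A n) a (u n) :=
  (wt_fld (L := syD b A u) a sA fun n => sm_nab (b.frm n).se (sA n) (sm n) a).le hL

/-- the derivatives of bounded resolvent solutions are auxiliary fields -/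
theorem e2_res (hc : ∀ a a' k, b.CS fun n => b.c n a a' k) (hg : ∀ a, b.CS fun n => g n a)
    (sk : ∀ n a x v w, ⟪A n a x v, w⟫_ℝ = -⟪v, A n a x w⟫_ℝ) (sm : ∀ n, Sm I (u n)) (bd : b.Bd u)
    (cr : ∀ dw, 3 ≤ dw → dw ≤ 4 → Crv b (b.cx L₀ dw) A u)
    (e : ∀ n x, u n x + lap I (b.e n) (g n) (A n) (u n) x = s n x) (hs : PF b L₀ sL A s) :
    E2 b L₀ fun L _ => (syD b A u).Le b L := by
  have sA := hs.sA
  obtain ⟨L, h1, h2⟩ := hs
  have a1 : (L₀.sum L).Le b (L₀.sum (L.sum (syD b A u))) := (le_sum_left b L _).sum L₀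
  have a2 := (le_sum_right b L (syD b A u)).trans (le_sum_right b L₀ _)
  refine ⟨L.sum (syD b A u), ?_, fun _ _ a _ _ => (le_sum_right b _ _).trans a⟩
  rintro (i | i)
  · exact (h1 i).le a1
  refine ok_nab hc hg sA sk sm bd (fun dw a c => (cr dw a c).le (le_sum_left b _ _))
    (wt_syD sA sm a2) (fun dw a c => ?_) i
  exact (((h2 dw a c).le a1).sub ((wt_sW sA sm bd (wt_syD sA sm a2 dw)).mono fun k =>
    (sW_sP (by omega) k).trans (sP_sL k))).congr fun n x => eq_sub_of_add_eq' (e n x)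

theorem nab_le (hL : (syD b A u).Le b L) {μ : ℝ} (m1 : 1 ≤ μ) (a : ι) (n : α) (x : X n) :
    ‖nab I (b.e n) (A n) a (u n) x‖ ≤ √(b.H L 0 μ 0 n x) := by
  have := hs_le_H (b := b) (L := syD b A u) (dw := 0) (μ := μ) (by linarith) a 0 x
  simp only [hs, syD, Fld.d, if_true, pow_zero, one_mul] at this
  exact (Real.sqrt_sq (norm_nonneg _)).ge.trans (this.trans (Real.sqrt_le_sqrt (hL ..)))

variable {β : ∀ n, V n →L[ℝ] V n →L[ℝ] U n} {K : ℝ} (sA : ∀ n a, Sm I (A n a))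
  (sB : ∀ n a, Sm I (B n a)) (K0 : 0 ≤ K) (h0 : ∀ n, ‖β n‖ ≤ K)
  (hβ : ∀ n a x s t, B n a x (β n s t) = β n (A n a x s) t + β n s (A n a x t))
include hβ

theorem nab_bil {n : α} {v l : X n → V n} (sv : Sm I v) (sl : Sm I l) (a : ι) (x : X n) :
    nab I (b.e n) (B n) a (fun y => β n (v y) (l y)) x =
      β n (nab I (b.e n) (A n) a v x) (l x) + β n (v x) (nab I (b.e n) (A n) a l x) := by
  simp only [nab, Sob92.dv_app (SA.clm (β n) (sv x)).md (SA.md (sl x)), Sob92.dv_clm (β n) (SA.md (sv x)),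
    hβ, map_add, _root_.add_apply]
  abel

include sA sB K0 h0

theorem nd_dd (sv : ∀ n, Sm I (v n)) (sl : ∀ n, Sm I (l n)) (hv : (syD b A v).Le b L₁)
    (hl : (syD b A l).Le b L₁) (i j : ι) : ND b L₁ B fun n x =>
      β n (nab I (b.e n) (A n) i (v n) x) (nab I (b.e n) (A n) j (l n) x) := by
  have wv := wt_syD sA sv hv 3
  have wl := wt_syD sA sl hl 3
  have w := Wt.bil sB h0 hβ (wv i) (wl j) cn_UU
  have n : ∀ n s t, ‖β n s t‖ ≤ K * ‖s‖ * ‖t‖ := fun n s t =>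
    (β n).le_of_opNorm₂_le_of_le (h0 n) le_rfl le_rfl
  refine ⟨w, w.sm, fun R => ⟨⟨K, K0, .of_forall fun q μ hp => (n ..).trans ?_⟩, fun a => ?_⟩⟩
  · rw [mul_assoc]
    refine mul_le_mul_of_nonneg_left (le_add_of_nonneg_of_le (by positivity) ?_) K0
    exact (mul_le_mul (nab_le hv hp.1 ..) (nab_le hl hp.1 ..) (norm_nonneg _) (Real.sqrt_nonneg _)).trans_eq
      (Real.mul_self_sqrt (b.H_nonneg ..))
  obtain ⟨K1, k1, h1⟩ := Wz78.vb_wt (wv i) [a] (d := 5) le_rfl R (u := fun _ μ => μ ^ 5) fun _ _ => le_rfl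
  obtain ⟨K2, k2, h2⟩ := Wz78.vb_wt (wl j) [a] (d := 5) le_rfl R (u := fun _ μ => μ ^ 5) fun _ _ => le_rfl
  refine ⟨K * K1 + K * K2, by positivity, (h1.and h2).mono fun q hq μ hp => ?_⟩
  have m0 : 0 ≤ μ := zero_le_one.trans hp.1
  have e : √(b.H L₁ 0 μ 0 q.1 q.2) ≤ √(μ ^ 4 + b.H L₁ 0 μ 0 q.1 q.2) :=
    Real.sqrt_le_sqrt (le_add_of_nonneg_left (by positivity))
  rw [add_mul]
  refine (congrArg norm (nab_bil hβ ((wv i).sm _) ((wl j).sm _) a q.2)).trans_le ?_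
  refine (norm_add_le _ _).trans (add_le_add ((n ..).trans ?_) ((n ..).trans ?_))
  · exact (mul_le_mul (mul_le_mul_of_nonneg_left (hq.1 μ hp) K0) ((nab_le hl hp.1 ..).trans e)
      (norm_nonneg _) (by positivity)).trans_eq (by ring)
  · exact (mul_le_mul (mul_le_mul_of_nonneg_left ((nab_le hv hp.1 ..).trans e) K0) (hq.2 μ hp)
      (norm_nonneg _) (by positivity)).trans_eq (by ring)

/-- one half of a current -/
theorem cu_half (hc : ∀ a a' k, b.CS fun n => b.c n a a' k)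
    (pr : ∀ n a x, ∑ k, b.P n a k x • A n k x = A n a x) (sv : ∀ n, Sm I (v n)) (sl : ∀ n, Sm I (l n))
    (bv : b.Bd v) (bl : b.Bd l) (cr : Crv b (b.cx L₀ 3) A l)
    (hv : E2 b L₀ fun L _ => (syD b A v).Le b L) (hl : E2 b L₀ fun L _ => (syD b A l).Le b L) :
    CU b L₀ B fun a n x => β n (v n x) (nab I (b.e n) (A n) a (l n) x) := by
  refine (hv.and hl).mono fun L L₁ a0 a1 ⟨hv, hl⟩ => ?_
  have c := fun a => Wt.bil sB h0 hβ (wt_sW sA sv bv (wt_syD sA sv hv 3)) (wt_syD sA sl hl 3 a) cn_WU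
  refine ⟨fun a n x => ?_, c, fun i j => ?_⟩
  · simp only [← map_smul, ← map_sum, (b.frm n).projN ⟨fun a x => sA n a x, pr n⟩]
  obtain ⟨R, hR, eR⟩ := cr.le a0 i j
  have p : ∀ {u}, (∀ n, Sm I (u n)) → b.Bd u → (syD b A u).Le b L → Wt (b.cx L₁ 3) A (sP 3) u :=
    fun s1 s2 s3 => (wt_sW sA s1 s2 (wt_syD sA s1 (s3.trans a1) 3)).mono (sW_sP (by omega))
  refine ((((nd_dd sA sB K0 h0 hβ sv sl (hv.trans a1) (hl.trans a1) i j).sub
    (nd_dd sA sB K0 h0 hβ sv sl (hv.trans a1) (hl.trans a1) j i)).add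
      (.of (Wt.bil sB h0 hβ (p sv bv hv) (hR.app sA (p sl bl hl) cn_UP) cn_PN))).add
        (.sum sB fun k => (ND.of (((c k).le a1).mono fun k => (sC_sU k).trans (sU_sN k))).smul
          (hc i j k))).congr fun n x => ?_
  have s := fun a => sm_nab (b.frm n).se (sA n) (sl n) a
  have e := eR n [] x
  simp only [Dw] at e
  rw [nab_bil hβ (sv n) (s j), nab_bil hβ (sv n) (s i), ← e,
    ← (b.frm n).nab_comm (sA n · x) i j (sl n x)]
  simp only [map_sub, map_sum, map_smul]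
  abel

end res

end Crest.Agent.X212.Th31
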