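import Crest.Agent.X212.Cmp73.Ine
import Crest.Agent.X212.Eps63.Ann
import Crest.Agent.X212.Shi84.Chs

/-!
# X212 / COMP (helper31): the homogeneous inequality (E3) for the weights three and four
-/

set_option autoImplicit false
set_option linter.unusedSectionVars false
open Set Filter Topology Function MeasureTheory Metric
open scoped ContDiff Manifold InnerProductSpace NNReal

noncomputable section
namespace Crest.Agent.X212.Th31

open Cmp73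
open An (Sm)
open Wz78 (nab)
open Sob92 (dv)
open Mp86 (Lop CM VF)
open Eps63 (HA cm_rpow Lop_rpow)

theorem e3_beta {t μ X Gb D g : ℝ} (m0 : 0 < μ) (tm : t ≤ μ ^ 2) (X0 : 0 ≤ X) (Gb0 : 0 ≤ Gb) (D0 : 0 ≤ D)
    (g0 : 0 ≤ g) (e : (μ ^ 6 * g) ^ 2 = 2 / 9 * D + μ ^ 2 * (X / 2 + 4 / 3 * Gb)) :
    √(2 + (μ ^ 4)⁻¹ * (((μ ^ 4) ^ 2)⁻¹ * (t * X) + ((μ ^ 3) ^ 2)⁻¹ * Gb)) ≤ 2 + 2 * g := by
  refine Real.sqrt_le_iff.2 ⟨by positivity, ?_⟩
  have e2 : (μ ^ 4)⁻¹ * (((μ ^ 4) ^ 2)⁻¹ * (t * X) + ((μ ^ 3) ^ 2)⁻¹ * Gb) =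
      (t * X + μ ^ 2 * Gb) / μ ^ 12 := by field_simp
  have e3 : (t * X + μ ^ 2 * Gb) / μ ^ 12 ≤ 2 * g ^ 2 := by
    rw [div_le_iff₀ (by positivity)]
    linarith [mul_le_mul_of_nonneg_right tm X0, mul_nonneg (sq_nonneg μ) Gb0]
  rw [e2]; linarith [sq_nonneg g]

theorem e3_arith {t μ b Ga Gb La Lb Da Dm K β : ℝ} (t1 : 1 ≤ t) (m1 : 1 ≤ μ) (b0 : 0 ≤ b)
    (e : t ^ 3 + b = μ ^ 6) (Ga0 : 0 ≤ Ga) (Gb0 : 0 ≤ Gb) (K0 : 0 ≤ K) (Dm0 : 0 ≤ Dm)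
    (hDa : Da ≤ 4 * t ^ 4 * Ga) (hDm : Dm ≤ 4 * μ ^ 6 * (9 / 16 * (Ga / t) + Gb))
    (hβ : β ≤ 1 + √(2 + (μ ^ 4)⁻¹ * (((μ ^ 4) ^ 2)⁻¹ * Ga + ((μ ^ 3) ^ 2)⁻¹ * Gb)))
    (β0 : 0 ≤ β) (ha : 2 * Ga - K * μ ^ 8 * β * t ^ 2 ≤ La) (hb : 2 * Gb - K * μ ^ 7 * β * √b ≤ Lb) :
    ∃ G, 0 ≤ G ∧ 2 * G - 7 * K * (1 + μ ^ 4) * ((1 + μ ^ 4) ^ 2 + μ ^ 2 * √G) ≤
      4 / 3 * μ ^ 2 * (3 / 4 * t⁻¹ * (La - 1 / 4 * Da / t ^ 4) + Lb + 1 / 3 * Dm / μ ^ 6) ∧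
      (4 / 3 * μ ^ 2) ^ 2 * Dm ≤ 4 * μ ^ 8 * G := by
  have t0 : 0 < t := by linarith
  have m0 : 0 < μ := by linarith
  obtain ⟨X, X0, rfl⟩ : ∃ X, 0 ≤ X ∧ Ga = t * X := ⟨Ga / t, by positivity, by field_simp⟩
  obtain ⟨D, D0, rfl⟩ : ∃ D, 0 ≤ D ∧ Dm = μ ^ 4 * D := ⟨Dm / μ ^ 4, by positivity, by field_simp⟩
  rw [mul_div_cancel_left₀ _ t0.ne'] at hDm
  have tm : t ≤ μ ^ 2 := le_of_pow_le_pow_left₀ (n := 3) (by norm_num) (by positivity) (by linarith)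
  have bm : √b ≤ μ ^ 3 := Real.sqrt_le_iff.2 ⟨by positivity, by linarith [pow_pos t0 3]⟩
  obtain ⟨G, hG⟩ : ∃ G, G = 2 / 9 * D + μ ^ 2 * (X / 2 + 4 / 3 * Gb) := ⟨_, rfl⟩
  have G0 : 0 ≤ G := by rw [hG]; positivity
  obtain ⟨g, g0, eg⟩ : ∃ g, 0 ≤ g ∧ √G = μ ^ 6 * g := ⟨√G / μ ^ 6, by positivity, by field_simp⟩
  have b3 : β ≤ 3 + 2 * g := by
    linarith [e3_beta m0 tm X0 Gb0 D0 g0 (by rw [← eg, Real.sq_sqrt G0, hG])]
  clear hβ
  refine ⟨G, G0, ?_, ?_⟩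
  · have a1 : X - K * μ ^ 10 * β ≤ t⁻¹ * (La - 1 / 4 * Da / t ^ 4) := by
      have c1 : 1 / 4 * Da / t ^ 4 ≤ t * X := by rw [div_le_iff₀ (by positivity)]; linarith
      rw [le_inv_mul_iff₀ t0]
      linarith [mul_le_mul_of_nonneg_left tm (show 0 ≤ K * μ ^ 8 * β * t by positivity)]
    have a2 : 2 * Gb - K * μ ^ 10 * β ≤ Lb := by
      linarith [mul_le_mul_of_nonneg_left bm (show 0 ≤ K * μ ^ 7 * β by positivity)]
    have a3 : 4 / 3 * μ ^ 2 * (1 / 3 * (μ ^ 4 * D) / μ ^ 6) = 4 / 9 * D := by field_simp; ring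
    have c1 : μ ^ 12 + μ ^ 12 * g ≤ (1 + μ ^ 4) * ((1 + μ ^ 4) ^ 2 + μ ^ 2 * √G) := by
      rw [eg]
      calc _ = μ ^ 4 * ((μ ^ 4) ^ 2 + μ ^ 2 * (μ ^ 6 * g)) := by ring
        _ ≤ _ := by gcongr <;> linarith
    have c2 := mul_le_mul_of_nonneg_left b3 (show 0 ≤ K * μ ^ 12 by positivity)
    have c3 := mul_le_mul_of_nonneg_left c1 K0
    have c4 : 0 ≤ K * μ ^ 12 * g := by positivity
    have a5 := mul_le_mul_of_nonneg_left a1 (sq_nonneg μ)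
    have a6 := mul_le_mul_of_nonneg_left a2 (sq_nonneg μ)
    rw [mul_add (4 / 3 * μ ^ 2), a3]
    generalize √G = r at *
    linarith
  · rw [hG]
    linarith [mul_le_mul_of_nonneg_left hDm (pow_nonneg m0.le 4), mul_nonneg (pow_nonneg m0.le 10) Gb0]

variable {E : Type} [NormedAddCommGroup E] [NormedSpace ℝ E] {HM : Type} [TopologicalSpace HM]
  {I : ModelWithCorners ℝ E HM} {ι : Type} [Fintype ι]

section one
variable {N : Type} [TopologicalSpace N] [ChartedSpace HM N] [IsManifold I ∞ N]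
  {e : ι → (x : N) → TangentSpace I x} {x : N}

theorem dv_rpow {f : N → ℝ} (v : (x : N) → TangentSpace I x) (hf : CM I 2 f x) (h0 : 0 < f x) (s : ℝ) :
    dv I v (fun y => f y ^ s) x = s * (f x ^ s / f x) * dv I v f x := by
  rw [Mp86.dv_comp (Real.hasDerivAt_rpow_const (p := s) (Or.inl h0.ne')).hasFDerivAt
    (hf.md one_le_two), Real.rpow_sub_one h0.ne']
  simp [mul_comm]

theorem rp_pow {a : ℝ} (h : 0 ≤ a) (s : ℝ) (k : ℕ) : (a ^ s) ^ k = a ^ (s * k) :=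
  (Real.rpow_mul_natCast h s k).symm

theorem ha_pt [CompleteSpace E] [BoundarylessManifold I N] (he : SmV I e) {a b : N → ℝ} (sa : CM I 2 a x)
    (sb : CM I 2 b x) (a1 : 1 ≤ a x) (b0 : 0 ≤ b x) {Ga Gb K : ℝ} (Ga0 : 0 ≤ Ga) (Gb0 : 0 ≤ Gb)
    (K0 : 0 ≤ K) (ga : ∀ θ : ι → ℝ, ∑ i, θ i * dv I (e i) a x ≤ (∑ i, θ i ^ 2) * a x + Ga)
    (gb : ∀ θ : ι → ℝ, ∑ i, θ i * dv I (e i) b x ≤ (∑ i, θ i ^ 2) * b x + Gb)
    (h : ∀ μ : ℝ, 1 ≤ μ → a x ≤ μ ^ 8 → b x ≤ μ ^ 6 → ∃ β, 0 ≤ β ∧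
      β ≤ 1 + √(2 + (μ ^ 4)⁻¹ * (((μ ^ 4) ^ 2)⁻¹ * Ga + ((μ ^ 3) ^ 2)⁻¹ * Gb)) ∧
      2 * Ga - K * μ ^ 8 * β * √(a x) ≤ Lop I e 0 a x ∧ 2 * Gb - K * μ ^ 7 * β * √(b x) ≤ Lop I e 0 b x) :
    HA I e 0 (7 * K) (fun y => (a y ^ (3 / 4 : ℝ) + b y) ^ (4 / 3 : ℝ)) x := by
  have hv : ∀ i, VF I 1 (e i) x := fun i => (he i x).of_le (by simp)
  have a0 : 0 < a x := by linarith
  have s1 := cm_rpow sa a0 (3 / 4)
  have sm : CM I 2 (fun y => a y ^ (3 / 4 : ℝ) + b y) x := s1.add sb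
  set t := a x ^ (1 / 4 : ℝ)
  have t1 : 1 ≤ t := Real.one_le_rpow a1 (by norm_num)
  have t3 : a x ^ (3 / 4 : ℝ) = t ^ 3 := by rw [rp_pow a0.le]; norm_num
  have t4 : a x = t ^ 4 := by rw [rp_pow a0.le]; norm_num
  have m1 : 1 ≤ a x ^ (3 / 4 : ℝ) + b x := by rw [t3]; linarith [one_le_pow₀ (n := 3) t1]
  have m0 : 0 < a x ^ (3 / 4 : ℝ) + b x := by linarith
  set μ := (a x ^ (3 / 4 : ℝ) + b x) ^ (1 / 6 : ℝ)
  have u1 : 1 ≤ μ := Real.one_le_rpow m1 (by norm_num)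
  have u6 : a x ^ (3 / 4 : ℝ) + b x = μ ^ 6 := by rw [rp_pow m0.le]; norm_num
  have u8 : (a x ^ (3 / 4 : ℝ) + b x) ^ (4 / 3 : ℝ) = μ ^ 8 := by rw [rp_pow m0.le]; norm_num
  have t0 : 0 < t := by linarith
  have u0 : 0 < μ := by linarith
  have tm : t ≤ μ ^ 2 :=
    le_of_pow_le_pow_left₀ (n := 3) (by norm_num) (by positivity) (by rw [← t3]; linarith)
  obtain ⟨β, β0, β1, h1, h2⟩ := h μ u1 (by
    rw [t4, show μ ^ 8 = (μ ^ 2) ^ 4 by ring]; gcongr) (by rw [← u6, t3]; linarith [pow_pos t0 3])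
  rw [t4, show t ^ 4 = (t ^ 2) ^ 2 by ring, Real.sqrt_sq (by positivity)] at h1
  have q1 : t ^ 3 / t ^ 4 = t⁻¹ := by field_simp
  have q2 : μ ^ 8 / μ ^ 6 = μ ^ 2 := by field_simp
  have dm : ∀ i, dv I (e i) (fun y => a y ^ (3 / 4 : ℝ) + b y) x =
      3 / 4 * t⁻¹ * dv I (e i) a x + dv I (e i) b x := fun i => by
    rw [Mp86.dv_add (s1.md one_le_two) (sb.md one_le_two), dv_rpow _ sa a0, t3, t4, q1]
  obtain ⟨G, G0, k1, k2⟩ := e3_arith (Da := ∑ i, dv I (e i) a x ^ 2)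
    (Dm := ∑ i, dv I (e i) (fun y => a y ^ (3 / 4 : ℝ) + b y) x ^ 2) t1 u1 b0 (t3 ▸ u6) Ga0 Gb0 K0
    (by positivity) (t4 ▸ sq_le_of_quad a0.le Ga0 ga) (u6 ▸ sq_le_of_quad m0.le (by positivity) fun θ => by
      have c1 := mul_le_mul_of_nonneg_left (ga fun i => 4 / 3 * θ i) (show 0 ≤ 9 / 16 * t⁻¹ by positivity)
      have c2 := gb θ
      have c3 : t⁻¹ * t ^ 4 = t ^ 3 := by field_simp
      simp only [dm, mul_add, Finset.sum_add_distrib, mul_pow, mul_assoc, ← Finset.mul_sum,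
        mul_left_comm (θ _), t3, div_eq_inv_mul Ga] at c1 ⊢
      rw [t4] at c1
      have c4 : t⁻¹ * ((∑ i, θ i ^ 2) * t ^ 4) = (∑ i, θ i ^ 2) * t ^ 3 := by rw [mul_left_comm, c3]
      nlinarith) β1 β0 h1 h2
  refine ⟨cm_rpow sm m0 _, G, μ ^ 2, G0, ?_, ?_, ?_⟩ <;> rw [u8]
  · rw [show μ ^ 8 = (μ ^ 4) ^ 2 by ring, Real.sqrt_sq (by positivity)]; linarith
  · rw [show μ ^ 8 = (μ ^ 4) ^ 2 by ring, Real.sqrt_sq (by positivity), Lop_rpow hv sm m0,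
      Mp86.Lop_add hv s1 sb, Lop_rpow hv sa a0, u8, u6, q2, t3]
    rw [t4, q1]
    convert k1 using 2; ring
  · simp only [dv_rpow _ sm m0, u8]
    simp only [u6, q2, mul_pow, ← Finset.mul_sum]
    simpa only [mul_pow] using k2

/-- interpolation for the derivative of a bounded section -/
theorem interp [CompleteSpace E] [BoundarylessManifold I N] [MeasurableSpace N] {E' : Type}
    [NormedAddCommGroup E'] [NormedSpace ℝ E'] [ProperSpace E'] {μ : Measure N}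
    {κ : OpenPartialHomeomorph N E'} {z : E'} {ρ K B W C τ : ℝ} {φ : E' → ℝ} {V : Type}
    [NormedAddCommGroup V] [InnerProductSpace ℝ V] {A : ι → N → V →L[ℝ] V} {w : N → V}
    (h : Ch I e μ κ (closedBall z ρ) K) (K0 : 0 < K) (he : SmV I e) (hφ : Shi84.Bmp φ B) (ρ1 : ρ ≤ 1)
    (sA : ∀ a, Sm I (A a)) (sk : ∀ a x v w, ⟪A a x v, w⟫_ℝ = -⟪v, A a x w⟫_ℝ) (sw : Sm I w) (a : ι)
    (τ1 : 1 ≤ τ) (eτ : τ * ρ = 1) (C0 : 0 ≤ C) (hW : ∀ y ∈ closedBall z ρ, ‖w (κ.symm y)‖ ≤ W)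
    (h1 : ∀ y ∈ closedBall z ρ, ‖nab I e A a w (κ.symm y)‖ ^ 2 ≤ C * τ ^ 3)
    (h2 : ∀ y ∈ closedBall z ρ, ∀ a', ‖nab I e A a' (nab I e A a w) (κ.symm y)‖ ^ 2 ≤ C * τ ^ 5) :
    (‖nab I e A a w (κ.symm z)‖ ^ 2) ^ 3 ≤ ((16 * W ^ 2 * C + 1) ^ 2 + 8 *
      (Fintype.card ι * K * (2 * C) + C + 1) ^ 2 * ((W ^ 2 + 1) * (B * K ^ 2 + B * K))) * τ ^ 8 := by
  have B0 := hφ.nn
  have τ0 : 0 < τ := by linarith
  have ρ0 : 0 < ρ := by by_contra! hn; nlinarith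
  have sf := sm_nab he sA sw a
  have hz := mem_closedBall_self (x := z) ρ0.le
  obtain ⟨L, hL⟩ : ∃ L : ℝ, L = Fintype.card ι * K * (2 * C) + C + 1 := ⟨_, rfl⟩
  have n0 : 0 ≤ Fintype.card ι * K * (2 * C) := by positivity
  have L0 : 0 < L := by linarith
  rw [← hL]
  obtain ⟨m, hm⟩ : ∃ m, m = ‖nab I e A a w (κ.symm z)‖ ^ 2 := ⟨_, rfl⟩
  have m0 : 0 ≤ m := hm ▸ sq_nonneg _
  rw [← hm, add_mul]
  by_cases hc : m ^ 2 ≤ 16 * W ^ 2 * C * τ ^ 5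
  · refine le_add_of_le_of_nonneg (le_of_pow_le_pow_left₀ (n := 2) (by norm_num) (by positivity) ?_)
      (by positivity)
    have d1 : 1 ≤ 16 * W ^ 2 * C + 1 := le_add_of_nonneg_left (by positivity)
    calc _ = (m ^ 2) ^ 3 := by ring
      _ ≤ ((16 * W ^ 2 * C + 1) * τ ^ 5) ^ 3 := by gcongr; linarith [pow_pos τ0 5]
      _ = (16 * W ^ 2 * C + 1) ^ 3 * τ ^ 15 := by ring
      _ ≤ (16 * W ^ 2 * C + 1) ^ 4 * τ ^ 16 := by gcongr <;> norm_num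
      _ = _ := by ring
  refine le_add_of_nonneg_of_le (by positivity) ?_
  have m1 : 0 < m := m0.lt_of_ne fun e => hc (by rw [← e]; simp; positivity)
  have s1 : m / (2 * L * τ ^ 4) ≤ ρ := by
    rw [div_le_iff₀ (by positivity), show ρ * (2 * L * τ ^ 4) = 2 * L * τ ^ 3 * (τ * ρ) by ring, eτ]
    nlinarith [h1 z hz, pow_pos τ0 3]
  have sb := closedBall_subset_closedBall (x := z) s1
  have md : ∀ x, Mp86.MD I (fun x => ‖nab I e A a w x‖ ^ 2) x := fun x =>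
    (Mp86.cm_normSq (sf x)).md (by simp)
  have := Shi84.tay h he hφ (s := m / (2 * L * τ ^ 4)) (by positivity) (s1.trans ρ1) sb a
    (g := fun x => ‖w x‖ ^ 2) (A := W ^ 2) (c := m / 2)
    (fun y _ => (Mp86.cm_normSq (sw _)).of_le Mp86.two_le) (sq_nonneg _)
    (fun y hy => pow_le_pow_left₀ (norm_nonneg _) (hW y (sb hy)) 2) fun y hy => ?_
  · rw [show (m / (2 * L * τ ^ 4)) ^ 2 * (m / 2) = m ^ 3 / (8 * L ^ 2 * τ ^ 8) by field_simp; ring,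
      div_le_iff₀ (by positivity)] at this
    linarith
  have b1 := Mp86.Lop_normSq (e := fun _ : Unit => e a) (b := 0) (A := fun _ => A a) (u := w)
    (x := κ.symm y) (fun _ => Shi84.vf1 he a _) (fun _ => (sA a _).of_le (by simp))
    (fun _ => .of_forall (sk a)) ((sw _).of_le Mp86.two_le)
  simp only [Lop, Mp86.LA, Finset.univ_unique, Finset.sum_singleton, Pi.zero_apply, zero_smul,
    add_zero] at b1
  have b2 := Shi84.lip h (convex_closedBall z ρ) Subset.rfl (f := fun x => ‖nab I e A a w x‖ ^ 2)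
    (A := 2 * C * τ ^ 4) (fun y _ => md _) (fun y hy a' => ?_) hz (sb hy)
  · rw [abs_of_pos K0, abs_of_nonneg (by positivity), Real.norm_eq_abs, ← hm] at b2
    have c1 : Fintype.card ι * K * (2 * C * τ ^ 4) * ‖y - z‖ ≤ L * τ ^ 4 * (m / (2 * L * τ ^ 4)) :=
      mul_le_mul (by nlinarith [pow_pos τ0 4]) (mem_closedBall_iff_norm.1 hy) (norm_nonneg _)
        (by positivity)
    rw [show L * τ ^ 4 * (m / (2 * L * τ ^ 4)) = m / 2 by field_simp] at c1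
    have c2 := neg_le_of_abs_le (b2.trans c1)
    have c3 := neg_le_of_abs_le ((abs_real_inner_le_norm (nab I e A a (nab I e A a w) (κ.symm y))
      (w (κ.symm y))).trans (mul_le_mul_of_nonneg_left (hW y (sb hy)) (norm_nonneg _)))
    have c4 : 4 * (‖nab I e A a (nab I e A a w) (κ.symm y)‖ * W) ≤ m :=
      (abs_le_of_sq_le_sq' (by
        nlinarith [mul_le_mul_of_nonneg_left (h2 y (sb hy) a) (sq_nonneg W)]) m0).2
    rw [b1]
    change _ ≤ 2 * ⟪nab I e A a (nab I e A a w) (κ.symm y), w (κ.symm y)⟫_ℝ +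
      2 * ‖nab I e A a w (κ.symm y)‖ ^ 2
    linarith
  have m1 : Mp86.MD I (nab I e A a w) (κ.symm y) := (sf _).mdifferentiableAt (by simp)
  have a3 := Mp86.dv_inner_cd (v := e a') (sk a' _) m1 m1
  simp only [real_inner_self_eq_norm_sq] at a3
  rw [a3, real_inner_comm, ← two_mul, norm_mul, Real.norm_ofNat, mul_assoc]
  refine mul_le_mul_of_nonneg_left ((norm_inner_le_norm _ _).trans
    (abs_le_of_sq_le_sq' ?_ (by positivity)).2) zero_le_two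
  rw [mul_pow]
  exact (mul_le_mul (h1 y hy) (h2 y hy a') (sq_nonneg _) (by positivity)).trans_eq (by ring)

end one

variable {α : Type} {X : α → Type} [∀ n, TopologicalSpace (X n)] [∀ n, ChartedSpace HM (X n)]
  [∀ n, IsManifold I ∞ (X n)] [∀ n, MeasurableSpace (X n)] {b : Fb I ι X} {L : Sy ι X}

variable (L) in
/-- the indicator of the fields of type `t` -/
def ch (t : Bool) (i : L.κ) : ℝ := if (L.f i).t = t then 1 else 0

variable (L) in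
/-- the size of the fields of type `t` -/
def fs (t : Bool) (n : α) (x : X n) : ℝ := ∑ i, ch L t i * ‖(L.f i).s n x‖ ^ 2

variable (b L) in
/-- the size of their derivatives -/
def gs (t : Bool) (n : α) (x : X n) : ℝ :=
  ∑ i, ch L t i * ∑ a, ‖nab I (b.e n) ((L.f i).A n) a ((L.f i).s n) x‖ ^ 2

theorem ch_nonneg (t : Bool) (i : L.κ) : 0 ≤ ch L t i := by unfold ch; split <;> simp

theorem fs_nonneg (t : Bool) (n : α) (x : X n) : 0 ≤ fs L t n x :=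
  Finset.sum_nonneg fun i _ => mul_nonneg (ch_nonneg t i) (sq_nonneg _)

theorem gs_nonneg (t : Bool) (n : α) (x : X n) : 0 ≤ gs b L t n x :=
  Finset.sum_nonneg fun i _ => mul_nonneg (ch_nonneg t i) (by positivity)

theorem wt_eq (dw : ℕ) (μ : ℝ) (i : L.κ) : ((μ ^ (L.f i).d dw) ^ 2)⁻¹ =
    ((μ ^ 4) ^ 2)⁻¹ * ch L false i + ((μ ^ dw) ^ 2)⁻¹ * ch L true i := by
  unfold ch Fld.d; cases (L.f i).t <;> simp

theorem H0_eq (dw : ℕ) (μ : ℝ) (n : α) (x : X n) : b.H L dw μ 0 n x =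
    ((μ ^ 4) ^ 2)⁻¹ * fs L false n x + ((μ ^ dw) ^ 2)⁻¹ * fs L true n x := by
  simp only [Fb.H, hs, fs, wt_eq, add_mul, Finset.sum_add_distrib, Finset.mul_sum, mul_assoc]

theorem H1_eq (dw : ℕ) (μ : ℝ) (n : α) (x : X n) : b.H L dw μ 1 n x = b.H L dw μ 0 n x + (μ ^ 4)⁻¹ *
    (((μ ^ 4) ^ 2)⁻¹ * gs b L false n x + ((μ ^ dw) ^ 2)⁻¹ * gs b L true n x) := by
  simp only [Fb.H, hs, gs, mul_add, Finset.sum_add_distrib, mul_left_comm _ (μ ^ 4)⁻¹,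
    ← Finset.mul_sum]
  simp only [wt_eq, add_mul, Finset.sum_add_distrib, mul_assoc, ← Finset.mul_sum, mul_add]

theorem le_fs {t : Bool} {i : L.κ} (h : (L.f i).t = t) (n : α) (x : X n) :
    ‖(L.f i).s n x‖ ^ 2 ≤ fs L t n x :=
  le_trans (by simp [ch, h]) (Finset.single_le_sum (f := fun i => ch L t i * ‖(L.f i).s n x‖ ^ 2)
    (fun i _ => mul_nonneg (ch_nonneg t i) (sq_nonneg _)) (Finset.mem_univ i))

theorem fs_le {t : Bool} {n : α} {x : X n} {C : L.κ → ℝ} {w : ℝ} (C0 : ∀ i, 0 ≤ C i) (w0 : 0 ≤ w)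
    (h : ∀ i, (L.f i).t = t → ‖(L.f i).s n x‖ ^ 2 ≤ C i * w) : fs L t n x ≤ (∑ i, C i) * w := by
  rw [Finset.sum_mul]
  refine Finset.sum_le_sum fun i _ => ?_
  unfold ch; split
  · rw [one_mul]; exact h i ‹_›
  · rw [zero_mul]; exact mul_nonneg (C0 i) w0

variable (hc : Cons b L)
include hc

theorem sm_sq (i : L.κ) (n : α) : Sm I fun x => ‖(L.f i).s n x‖ ^ 2 :=
  fun x => Mp86.cm_normSq ((hc.ok i).sm n x)

theorem sm_fs (t : Bool) (n : α) : Sm I (fs L t n) := sm_lin _ fun i => sm_sq hc i n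

theorem fs_grad (t : Bool) (n : α) (x : X n) (θ : ι → ℝ) :
    ∑ a, θ a * dv I (b.e n a) (fs L t n) x ≤ (∑ a, θ a ^ 2) * fs L t n x + gs b L t n x := by
  unfold fs gs
  simp only [dv_lin _ fun i => sm_sq hc i n, Finset.mul_sum _ _ (θ _), Finset.mul_sum _ _ (∑ _, _)]
  rw [Finset.sum_comm, ← Finset.sum_add_distrib]
  refine Finset.sum_le_sum fun i _ => ?_
  simp only [mul_left_comm _ (ch L t i), ← Finset.mul_sum, ← mul_add]
  exact mul_le_mul_of_nonneg_left (grad_hs (μ := 1) (b.frm n).se ((hc.ok i).sA n) ((hc.ok i).sk n) θ x 0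
    ((hc.ok i).sm n)) (ch_nonneg t i)

theorem fs_Lop (t : Bool) (n : α) (x : X n) {Λ r : ℝ} (Λ0 : 0 ≤ Λ) (hr : fs L t n x ≤ r)
    (h : ∀ i, (L.f i).t = t → ‖L0 I (b.e n) ((L.f i).A n) ((L.f i).s n) x‖ ≤ Λ) :
    2 * gs b L t n x - 2 * Fintype.card L.κ * Λ * √r ≤ Lop I (b.e n) 0 (fs L t n) x := by
  refine le_trans ?_ (Lop_lin (b.frm n).se _ (fun i => sm_sq hc i n) x).ge
  rw [gs, show ∀ a c d e : ℝ, a * c * d * e = c * (a * d * e) from fun _ _ _ _ => by ring,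
    ← nsmul_eq_mul, ← Finset.card_univ, ← Finset.sum_const, Finset.mul_sum, ← Finset.sum_sub_distrib]
  refine Finset.sum_le_sum fun i _ => ?_
  by_cases ht : (L.f i).t = t
  · have := Lop_hs (b.frm n).se ((hc.ok i).sA n) ((hc.ok i).sk n) one_pos x 0 ((hc.ok i).sm n)
      (Λ := Λ) fun v hv => by
        obtain rfl := List.length_eq_zero_iff.1 (Nat.le_zero.1 hv)
        simpa [Dw] using h i ht
    simp only [hs, pow_zero, mul_one] at this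
    have h2 := mul_le_mul_of_nonneg_left (Real.sqrt_le_sqrt ((le_fs ht n x).trans hr)) Λ0
    simp only [ch, ht, if_true, one_mul]
    linarith
  · simp only [ch, ht, if_false, zero_mul, mul_zero, zero_sub, neg_nonpos]
    positivity

/-- **(E3)** -/
theorem e3 [CompleteSpace E] [∀ n, BoundarylessManifold I (X n)] : ∃ h : ∀ n, X n → ℝ,
    (∀ n, Continuous (h n)) ∧ (∀ n x, 0 ≤ h n x) ∧ (∀ n x, b.H L 3 1 0 n x ≤ 2 * h n x) ∧
    (∀ n x, h n x ^ 3 ≤ 8 * ((1 + fs L false n x) ^ 3 + fs L true n x ^ 4)) ∧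
    ∃ C, 0 ≤ C ∧ ∀ᶠ q in b.F, HA I (b.e q.1) 0 C (h q.1) q.2 := by
  have f0 := fs_nonneg (L := L)
  have a0 : ∀ n x, 0 ≤ 1 + fs L false n x := fun n x => by linarith [f0 false n x]
  have a1 : ∀ n x, 1 ≤ (1 + fs L false n x) ^ (3 / 4 : ℝ) := fun n x =>
    Real.one_le_rpow (by linarith [f0 false n x]) (by norm_num)
  have m0 : ∀ n x, 0 ≤ (1 + fs L false n x) ^ (3 / 4 : ℝ) + fs L true n x := fun n x => by
    linarith [f0 true n x, a1 n x]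
  refine ⟨fun n x => ((1 + fs L false n x) ^ (3 / 4 : ℝ) + fs L true n x) ^ (4 / 3 : ℝ),
    fun n => (((continuous_const.add (sm_fs hc _ n).continuous).rpow_const fun _ => .inr (by norm_num)).add
      (sm_fs hc _ n).continuous).rpow_const fun _ => .inr (by norm_num),
    fun n x => Real.rpow_nonneg (m0 n x) _, fun n x => ?_, fun n x => ?_, ?_⟩
  · have c1 := Real.rpow_le_rpow (zero_le_one.trans (a1 n x)) (le_add_of_nonneg_right (f0 true n x))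
      (show (0 : ℝ) ≤ 4 / 3 by norm_num)
    rw [← Real.rpow_mul (a0 n x), show (3 / 4 * (4 / 3) : ℝ) = 1 by norm_num, Real.rpow_one] at c1
    have c2 := Real.self_le_rpow_of_one_le (y := 4 / 3)
      (le_add_of_le_of_nonneg (a1 n x) (f0 true n x)) (by norm_num)
    rw [H0_eq]
    simp only [one_pow, inv_one, one_mul]
    linarith [a1 n x]
  · have c1 : ((1 + fs L false n x) ^ (3 / 4 : ℝ)) ^ 4 = (1 + fs L false n x) ^ 3 := by
      rw [rp_pow (a0 n x), ← Real.rpow_natCast]; norm_num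
    rw [rp_pow (m0 n x), show (4 / 3 * ((3 : ℕ) : ℝ) : ℝ) = ((4 : ℕ) : ℝ) by norm_num,
      Real.rpow_natCast, ← c1]
    simpa [show (2 : ℝ) ^ 3 = 8 by norm_num] using add_pow_le (zero_le_one.trans (a1 n x)) (f0 true n x) 4
  obtain ⟨K, K0, hK⟩ := hc.core (dw := 3) le_rfl le_rfl 0 0 (by omega) 2
  refine ⟨7 * (2 * Fintype.card L.κ * K), by positivity, hK.mono fun ⟨n, x⟩ hq => ?_⟩
  have s1 : CM I 2 (fs L false n) x := (sm_fs hc false n x).of_le Mp86.two_le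
  have hv : ∀ i, VF I 1 (b.e n i) x := fun i => ((b.frm n).se i x).of_le (by simp)
  refine ha_pt (a := fun x => 1 + fs L false n x) (b.frm n).se (contMDiffAt_const.add s1)
    ((sm_fs hc true n x).of_le Mp86.two_le) (le_add_of_nonneg_right (f0 ..)) (f0 ..)
    (gs_nonneg (b := b) (L := L) false n x) (gs_nonneg true n x) (by positivity) (fun θ => ?_) (fs_grad hc true n x)
    fun μ m1 h1 h2 => ?_
  · simp only [Mp86.dv_add mdifferentiableAt_const (s1.md one_le_two), Mp86.dv_const, zero_add]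
    refine (fs_grad hc false n x θ).trans ?_
    gcongr; linarith
  have μ0 : 0 < μ := by linarith
  have H2 : b.H L 3 μ 0 n x ≤ 2 := by
    rw [H0_eq]
    refine (add_le_add (b := 1) (d := 1) ?_ ?_).trans_eq one_add_one_eq_two <;> rw [inv_mul_le_iff₀ (by positivity)] <;> linarith
  have hq' := fun i => hq μ m1 (.inr (.inl rfl)) H2 i [] le_rfl
  simp only [Dw, List.length_nil, mul_zero, pow_zero, one_mul, zero_add, Nat.sub_zero, bt] at hq'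
  refine ⟨1 + √(b.H L 3 μ 1 n x), by positivity, ?_, ?_, ?_⟩
  · rw [H1_eq]; gcongr
  · rw [Mp86.Lop_add hv contMDiffAt_const s1, Mp86.Lop_const, zero_add]
    exact le_trans (le_of_eq (by ring)) (fs_Lop hc false n x (r := 1 + fs L false n x)
      (Λ := μ ^ 4 * (K * μ ^ 4 * (1 + √(b.H L 3 μ 1 n x)))) (by positivity)
      (by linarith) fun i hi => (hq' i).trans_eq (by rw [Fld.d, hi]; rfl))
  · exact le_trans (le_of_eq (by ring)) (fs_Lop hc true n x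
      (Λ := μ ^ 3 * (K * μ ^ 4 * (1 + √(b.H L 3 μ 1 n x)))) (by positivity) le_rfl
      fun i hi => (hq' i).trans_eq (by rw [Fld.d, hi]; rfl))

end Crest.Agent.X212.Th31
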